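import Vale.Agent.P253.H202.Orb
import Vale.Agent.P253.H836.Forms

/-!
P253: the dichotomy for the speed of an orbit of `-JX`.
-/

open scoped Manifold ContDiff Topology Bundle ENNReal
open Set Metric Complex Filter Bundle IsManifold Manifold Vale.Agent.P253.Mfd
  Vale.Agent.P253.H502

set_option maxSynthPendingDepth 3
set_option linter.unusedSectionVars false

noncomputable section

namespace Vale.Agent.P253.H202

variable {E : Type*} [NormedAddCommGroup E] [NormedSpace ℂ E] [FiniteDimensional ℂ E]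
  {M : Type*} [MetricSpace M] [ChartedSpace E M]
  [IsManifold 𝓘(ℂ, E) 1 M] [IsManifold 𝓘(ℝ, E) ∞ M]
  [RiemannianBundle (fun x : M => TangentSpace 𝓘(ℝ, E) x)]
  [IsContMDiffRiemannianBundle 𝓘(ℝ, E) ∞ E (fun x : M => TangentSpace 𝓘(ℝ, E) x)]
  {ρ : ℝ → M → M} {Φ : ℝ → M → M}

/-- an orthonormal frame of a tangent space, on the model space -/
theorem exists_onframe (x : M) : ∃ (d : ℕ) (ψ : EuclideanSpace ℝ (Fin d) ≃L[ℝ] E),
    ∀ a b, innerAt (E := E) x (ψ a) (ψ b) = inner ℝ a b := by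
  have hfd : FiniteDimensional ℝ E := FiniteDimensional.complexToReal E
  have hfd' : FiniteDimensional ℝ (TangentSpace 𝓘(ℝ, E) x) := hfd
  set L := (stdOrthonormalBasis ℝ (TangentSpace 𝓘(ℝ, E) x)).repr.symm with hL
  let L0 : EuclideanSpace ℝ (Fin (Module.finrank ℝ (TangentSpace 𝓘(ℝ, E) x))) ≃ₗ[ℝ] E :=
    L.toLinearEquiv
  exact ⟨_, L0.toContinuousLinearEquiv, fun a b => L.inner_map_map a b⟩

namespace IsFlow

variable [IsRiemannianManifold 𝓘(ℝ, E) M] (hF : IsFlow E ρ Φ)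
include hF

/-- the field is invariant under its flow -/
theorem dM_WE (hρ : IsHolIsomFlow E ρ) (t : ℝ) (x : M) :
    dM (E := E) (Φ t) x (WE ρ x) = WE ρ (Φ t x) := by
  have h1 := hF.curve x 0
  have h4 := hF.curve (Φ t x) 0
  have hs := (((hF.smooth hρ t) (Φ 0 x)).mdifferentiableAt (by simp)).hasMFDerivAt
  have h3 := HasMFDerivAt.comp (0:ℝ) (f := fun s => Φ s x) hs h1
  have hev : (fun s => Φ s (Φ t x)) =ᶠ[𝓝 (0:ℝ)] Φ t ∘ fun s => Φ s x := by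
    refine Eventually.of_forall fun s => ?_
    simp only [Function.comp_apply]
    rw [← hF.add, ← hF.add, add_comm]
  have h5 := hasMFDerivAt_unique (h3.congr_of_eventuallyEq hev) h4
  have h6 : dM (E := E) (Φ t) (Φ 0 x) (WE ρ (Φ 0 x)) = WE ρ (Φ 0 (Φ t x)) := by
    have h7 : dM (E := E) (Φ t) (Φ 0 x) (((1 : ℝ →L[ℝ] ℝ) (1:ℝ)) • WE ρ (Φ 0 x)) =
        ((1 : ℝ →L[ℝ] ℝ) (1:ℝ)) • WE ρ (Φ 0 (Φ t x)) :=
      congrArg (fun T : ℝ →L[ℝ] E => T 1) h5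
    have h8 : (1 : ℝ →L[ℝ] ℝ) (1:ℝ) = 1 := rfl
    rwa [h8, one_smul, one_smul] at h7
  rwa [hF.zero, hF.zero] at h6

theorem nW_flow (hρ : IsHolIsomFlow E ρ) (t : ℝ) (x : M) :
    nW (E := E) ρ (Φ t x) = GB (E := E) Φ x t (WE ρ x) (WE ρ x) := by
  rw [GB_apply, hF.dM_WE hρ, nW]

theorem GB_zero (x : M) (a b : E) : GB Φ x 0 a b = innerAt (E := E) x a b := by
  rw [GB_apply, hF.dM_zero, hF.dM_zero, hF.zero]

/-- the differential inequality -/
theorem T_le (hK : IsKahler E M) (hnn : ∀ x : M, NonnegBisectionalAt E x)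
    (hρ : IsHolIsomFlow E ρ) (x : M) (t : ℝ) {T : E →L[ℝ] E →L[ℝ] ℝ}
    (hT : ∀ a, T a a = TM (E := E) ρ (Φ t x) (dM (Φ t) x a)) (a n : E)
    (hn : ∀ b, GB Φ x t n b = SB ρ Φ x t a b) : T a a ≤ 2 * GB Φ x t n n := by
  have h1 : dM (E := E) (Φ t) x n = NL ρ (Φ t x) (dM (Φ t) x a) := by
    by_contra hne
    obtain ⟨b, hb⟩ := hF.dM_surj hρ t x (dM (E := E) (Φ t) x n - NL ρ (Φ t x) (dM (Φ t) x a))
    have h2 := hn b
    rw [GB_apply, SB_apply, hb] at h2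
    have h3 := innerAt_pos (E := E) (Φ t x) (sub_ne_zero.2 hne)
    rw [innerAt_sub_left, h2, sub_self] at h3
    exact lt_irrefl _ h3
  have he : chartAt E (Φ t x) ∈ maximalAtlas 𝓘(ℂ, E) 1 M := chart_mem_maximalAtlas _
  have h2 := Rc_nonneg_chartG hK he (mem_chart_target E (Φ t x)) (hnn _)
    (vF ρ (chartAt E (Φ t x)) (chartAt E (Φ t x) (Φ t x))) (dM (Φ t) x a)
  rw [hT, GB_apply, h1, TM]
  linarith

end IsFlow

variable [IsRiemannianManifold 𝓘(ℝ, E) M]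

/-- **the dichotomy for the speed** of an orbit of `-JX` -/
theorem speed_dichotomy (hK : IsKahler E M) (hnn : ∀ x : M, NonnegBisectionalAt E x)
    [CompleteSpace M] (hρ : IsHolIsomFlow E ρ) {γ : ℝ → M}
    (hγ : IsMIntegralCurve (I := 𝓘(ℝ, E)) γ (W ρ)) (h0 : 0 < nW (E := E) ρ (γ 0)) :
    (∃ C s, 0 < s ∧ ∀ t, 0 ≤ t → nW (E := E) ρ (γ t) ≤ C * Real.exp (-s * t)) ∨
      (∃ b > 0, ∀ t, 0 ≤ t → b ≤ nW (E := E) ρ (γ t)) := by
  have hT2 : T2Space M := inferInstance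
  have hfd : FiniteDimensional ℝ E := FiniteDimensional.complexToReal E
  obtain ⟨Φ, hΦ0, hΦadd, hΦ, -⟩ := exists_flow hK hnn hρ
  have hF : IsFlow E ρ Φ := ⟨hΦ0, hΦadd, hΦ⟩
  have hγΦ : ∀ t, γ t = Φ t (γ 0) := fun t => congrFun
    (isMIntegralCurve_Ioo_eq_of_contMDiff_boundaryless (t₀ := 0) (contMDiff_W hρ) hγ (hΦ (γ 0))
      (by simp [hΦ0])) t
  choose T dS hT using fun t => hF.exists_deriv_SB hK hρ (γ 0) t
  obtain ⟨d, ψ, hψ⟩ := exists_onframe (E := E) (γ 0)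
  have hv : WE (E := E) ρ (γ 0) ≠ 0 := by
    intro h1
    rw [nW, h1, ← chartG_chartAt, map_zero] at h0
    exact lt_irrefl _ h0
  have h1 := Vale.Agent.P253.H836.form_dichotomy ψ (G := GB (E := E) Φ (γ 0)) (S := SB (E := E) ρ Φ (γ 0)) (T := T)
    (fun t a b => hF.GB_symm _ t a b) (fun t a ha => hF.GB_pos hρ _ t ha)
    (fun t a b => hF.SB_symm hK hρ _ t a b) (fun t => hF.hasDerivAt_GB hK hρ _ t) dS
    (fun t a n hn => hF.T_le hK hnn hρ _ t (hT t) a n hn)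
    (fun a b => by rw [hF.GB_zero, hψ]) hv
  have h2 : ∀ t, GB (E := E) Φ (γ 0) t (WE ρ (γ 0)) (WE ρ (γ 0)) = nW (E := E) ρ (γ t) :=
    fun t => by rw [hγΦ t, hF.nW_flow hρ]
  simp only [h2] at h1
  exact h1

end Vale.Agent.P253.H202
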