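import Vale.Agent.P253.H202.Bott
import Vale.Agent.P253.H202.Speed

/-!
P253: if all weights at all critical points of a Killing potential are nonnegative and all orbits
of `-grad h` converge, the critical points are the minimum points.
-/

open scoped Manifold ContDiff Topology Bundle
open Set Metric Complex Filter Bundle IsManifold Manifold Module Vale.Agent.P253.Mfd
  Vale.Agent.P253.H577 Vale.Agent.P253.H22

set_option maxSynthPendingDepth 3
set_option linter.unusedSectionVars false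

noncomputable section

namespace Vale.Agent.P253.H202

variable {E : Type*} [NormedAddCommGroup E] [NormedSpace ℂ E] [FiniteDimensional ℂ E]
  {M : Type*} [MetricSpace M] [ChartedSpace E M]
  [IsManifold 𝓘(ℂ, E) 1 M] [IsManifold 𝓘(ℝ, E) ∞ M]
  [RiemannianBundle (fun x : M => TangentSpace 𝓘(ℝ, E) x)]
  [IsContMDiffRiemannianBundle 𝓘(ℝ, E) ∞ E (fun x : M => TangentSpace 𝓘(ℝ, E) x)]
  [IsRiemannianManifold 𝓘(ℝ, E) M]
  {ρ : ℝ → M → M} {h : M → ℝ} {γ : ℝ → M}

theorem continuous_pot (hgrad : IsGradOf (E := E) ρ h) : Continuous h := by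
  refine continuous_iff_continuousAt.2 fun x => ?_
  have he : chartAt E x ∈ maximalAtlas 𝓘(ℂ, E) 1 M := chart_mem_maximalAtlas x
  set e := chartAt E x with hedef
  have hx : x ∈ e.source := mem_chart_source E x
  have h1 : ContinuousAt (fun y : E => h (e.symm y)) (e x) :=
    (hgrad e he _ (e.map_source hx)).continuousAt
  have h2 : ContinuousAt (fun y => h (e.symm (e y))) x :=
    ContinuousAt.comp (f := e) (g := fun y : E => h (e.symm y)) h1 (e.continuousAt hx)
  refine h2.congr ?_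
  filter_upwards [e.open_source.mem_nhds hx] with y hy
  rw [e.left_inv hy]

/-- real weights at a fixed point are nonnegative -/
def NNWeights (ρ : ℝ → M → M) (p : M) : Prop :=
  ∀ (b : Basis (Fin (finrank ℂ E)) ℂ E) (m : Fin (finrank ℂ E) → ℝ),
    (∀ (t : ℝ) j, mfderiv 𝓘(ℂ, E) 𝓘(ℂ, E) (ρ t) p (b j) = exp (t * m j * I) • b j) →
    ∀ j, 0 ≤ m j

/-- near a critical point with nonnegative weights the potential tends to the critical value along
the orbits of `-grad h` -/
theorem exists_nhds_tendsto (hK : IsKahler E M) (hρ : IsHolIsomFlow E ρ)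
    (hgrad : IsGradOf (E := E) ρ h) {p : M} (hfix : ∀ t, ρ t p = p)
    (hw : NNWeights (E := E) ρ p) :
    ∃ U : Set M, IsOpen U ∧ p ∈ U ∧ ∀ γ : ℝ → M, IsMIntegralCurve (I := 𝓘(ℝ, E)) γ (W (E := E) ρ) →
      γ 0 ∈ U → Tendsto (fun t => h (γ t)) atBot (𝓝 (h p)) := by
  obtain ⟨b, m, hbm⟩ := exists_real_weights hK hρ hfix
  have hm := hw b m hbm
  obtain ⟨e₀, he₀, δ, hδ, hp, hp0, htgt, hequiv⟩ := exists_linearizing_chart hρ hfix
    b.equivFun.toContinuousLinearEquiv m (Vale.Agent.P253.U165.weights_LE hbm)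
  exact ⟨e₀.source, e₀.open_source, hp, fun γ hγ h0 =>
    eventually_tendsto hρ hgrad he₀ hp hp0 htgt hequiv hm hγ h0⟩

/-- **critical points are minima** -/
theorem crit_eq_argmin [ConnectedSpace M] (hK : IsKahler E M)
    (hnn : ∀ x : M, NonnegBisectionalAt E x) [CompleteSpace M]
    (hρ : IsHolIsomFlow E ρ) (hgrad : IsGradOf (E := E) ρ h)
    (hlim : ∀ {γ : ℝ → M}, IsMIntegralCurve (I := 𝓘(ℝ, E)) γ (W (E := E) ρ) →
      ∃ p, (∀ t, ρ t p = p) ∧ Tendsto γ atBot (𝓝 p))
    (hw : ∀ p, (∀ t, ρ t p = p) → NNWeights (E := E) ρ p) :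
    ∃ c, (∀ x, c ≤ h x) ∧ ∀ x, h x = c ↔ ∀ t, ρ t x = x := by
  obtain ⟨Φ, hΦ0, hΦadd, hΦ, hcomm⟩ := exists_flow hK hnn hρ
  have hF : IsFlow E ρ Φ := ⟨hΦ0, hΦadd, hΦ⟩
  have hhc := continuous_pot (E := E) hgrad
  choose P hPfix hP using fun x => hlim (hΦ x)
  have hlimc : ∀ x, Tendsto (fun t => h (Φ t x)) atBot (𝓝 (h (P x))) := fun x =>
    (hhc.tendsto _).comp (hP x)
  -- the value does not change under the flow
  have hshift : ∀ (T : ℝ) (x : M) (c : ℝ),
      Tendsto (fun t => h (Φ t (Φ T x))) atBot (𝓝 c) → h (P x) = c := by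
    intro T x c hc
    have h1 : Tendsto (fun t : ℝ => t + T) atBot atBot := tendsto_atBot_add_const_right _ _ tendsto_id
    have h2 := (hlimc x).comp h1
    have h3 : (fun t => h (Φ t (Φ T x))) = (fun t => h (Φ t x)) ∘ fun t => t + T := by
      funext t
      simp only [Function.comp_apply]
      rw [hΦadd]
    rw [h3] at hc
    exact tendsto_nhds_unique h2 hc
  have hloc : ∀ x₀, ∀ᶠ x in 𝓝 x₀, h (P x) = h (P x₀) := by
    intro x₀
    obtain ⟨U, hU, hpU, hUt⟩ := exists_nhds_tendsto hK hρ hgrad (hPfix x₀) (hw _ (hPfix x₀))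
    obtain ⟨T, hT⟩ := ((hP x₀).eventually (hU.mem_nhds hpU)).exists
    have hc : Continuous (Φ T) := (hF.smooth hρ T).continuous
    filter_upwards [hc.continuousAt.eventually (hU.mem_nhds hT)] with x hx
    exact hshift T x _ (hUt _ (hΦ (Φ T x)) (by rw [hΦ0]; exact hx))
  have hconst : ∀ x y, h (P x) = h (P y) := by
    have h1 : IsLocallyConstant fun x => h (P x) := (IsLocallyConstant.iff_eventually_eq _).2 hloc
    exact fun x y => h1.apply_eq_of_preconnectedSpace x y
  have hcrit : ∀ x, (∀ t, ρ t x = x) → h (P x) = h x := by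
    intro x hx
    obtain ⟨U, hU, hpU, hUt⟩ := exists_nhds_tendsto hK hρ hgrad hx (hw _ hx)
    have h1 := hUt _ (hΦ x) (by rw [hΦ0]; exact hpU)
    exact tendsto_nhds_unique (hlimc x) h1
  obtain ⟨x₁⟩ : Nonempty M := inferInstance
  have hmono : ∀ x, Monotone fun t => h (Φ t x) := fun x =>
    monotone_of_deriv_nonneg (fun t => (hasDerivAt_pot hρ hgrad (hΦ x) t).differentiableAt)
      fun t => by
        rw [(hasDerivAt_pot hρ hgrad (hΦ x) t).deriv]
        exact nW_nonneg hρ _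
  have hge : ∀ x t, h (P x) ≤ h (Φ t x) := fun x t => (hmono x).le_of_tendsto (hlimc x) t
  refine ⟨h (P x₁), fun x => ?_, fun x => ⟨fun hx θ => ?_, fun hx => ?_⟩⟩
  · rw [hconst x₁ x]
    have h1 := hge x 0
    rwa [hΦ0] at h1
  · -- the orbit is constant
    have h1 : ∀ t ≤ (0:ℝ), h (Φ t x) = h (P x) := by
      intro t ht
      refine le_antisymm ?_ (hge x t)
      have h2 := hmono x ht
      simp only [hΦ0] at h2
      rw [hconst x x₁, ← hx]
      exact h2
    have h2 : HasDerivAt (fun t => h (Φ t x)) 0 (-1) := by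
      refine (hasDerivAt_const (-1:ℝ) (h (P x))).congr_of_eventuallyEq ?_
      filter_upwards [Iio_mem_nhds (by norm_num : (-1:ℝ) < 0)] with t ht using h1 t ht.le
    have h3 := (hasDerivAt_pot hρ hgrad (hΦ x) (-1)).unique h2
    have h4 := fixed_of_nW hρ h3 θ
    have h5 : x = Φ 1 (Φ (-1) x) := by rw [← hΦadd, add_neg_cancel, hΦ0]
    rw [h5, hcomm, h4]
  · rw [hconst x₁ x, hcrit x hx]

end Vale.Agent.P253.H202
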