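import Mathlib.Analysis.Calculus.Deriv.Mul
import Mathlib.Analysis.Calculus.Deriv.Add
import Mathlib.Analysis.Normed.Module.FiniteDimension
import Mathlib.Tactic

/-!
P253: differentiability of functions with values in bilinear forms, from the diagonal.
-/

open Filter Set
open scoped Topology

noncomputable section

namespace Vale.Agent.P253.H202

variable {F : Type*} [NormedAddCommGroup F] [NormedSpace ℝ F] [FiniteDimensional ℝ F]

theorem differentiableAt_clm {X : Type*} [NormedAddCommGroup X] [NormedSpace ℝ X]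
    {L : ℝ → F →L[ℝ] X} {t : ℝ} (h : ∀ a, DifferentiableAt ℝ (fun t => L t a) t) :
    DifferentiableAt ℝ L t := by
  set b := Module.finBasis ℝ F with hb
  set c : Fin (Module.finrank ℝ F) → (F →L[ℝ] ℝ) := fun i =>
    LinearMap.toContinuousLinearMap (b.coord i) with hc
  have h1 : L = fun s => ∑ i, ContinuousLinearMap.smulRightL ℝ F X (c i) (L s (b i)) := by
    funext s
    ext a
    rw [sum_apply]
    conv_lhs => rw [← b.sum_repr a, map_sum]
    refine Finset.sum_congr rfl fun i _ => ?_
    rw [map_smul]
    rfl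
  rw [h1]
  refine DifferentiableAt.fun_sum fun i _ => ?_
  exact (ContinuousLinearMap.smulRightL ℝ F X (c i)).differentiableAt.comp t (h (b i))

theorem differentiableAt_bilin {B : ℝ → F →L[ℝ] F →L[ℝ] ℝ} (hs : ∀ t a b, B t a b = B t b a)
    {t : ℝ} (h : ∀ a, DifferentiableAt ℝ (fun t => B t a a) t) : DifferentiableAt ℝ B t := by
  refine differentiableAt_clm fun a => differentiableAt_clm fun b => ?_
  have h1 : (fun t => B t a b) = fun t => (B t (a + b) (a + b) - B t a a - B t b b) / 2 := by
    funext t
    simp only [map_add, add_apply]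
    rw [hs t b a]
    ring
  rw [h1]
  exact (((h (a + b)).sub (h a)).sub (h b)).div_const 2

theorem hasDerivAt_bilin {B : ℝ → F →L[ℝ] F →L[ℝ] ℝ} (hs : ∀ t a b, B t a b = B t b a)
    {B' : F →L[ℝ] F →L[ℝ] ℝ} (hs' : ∀ a b, B' a b = B' b a)
    {t : ℝ} (h : ∀ a, HasDerivAt (fun t => B t a a) (B' a a) t) : HasDerivAt B B' t := by
  have h0 : DifferentiableAt ℝ B t := differentiableAt_bilin hs fun a => (h a).differentiableAt
  obtain ⟨D, h1⟩ : ∃ D : F →L[ℝ] F →L[ℝ] ℝ, HasDerivAt B D t := by
    obtain ⟨D', hD'⟩ := h0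
    exact ⟨D' 1, hD'.hasDerivAt⟩
  have h2 : ∀ a b, HasDerivAt (fun t => B t a b) (D a b) t := by
    intro a b
    have h3 := (h1.clm_apply (hasDerivAt_const t a)).clm_apply (hasDerivAt_const t b)
    simpa using h3
  have h4 : ∀ a b, D a b = B' a b := by
    intro a b
    have h5 : HasDerivAt (fun t => B t a b) ((B' (a + b) (a + b) - B' a a - B' b b) / 2) t := by
      have h6 : (fun t => B t a b) = fun t => (B t (a + b) (a + b) - B t a a - B t b b) / 2 := by
        funext t
        simp only [map_add, add_apply]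
        rw [hs t b a]
        ring
      rw [h6]
      exact (((h (a + b)).sub (h a)).sub (h b)).div_const 2
    rw [(h2 a b).unique h5]
    simp only [map_add, add_apply]
    rw [hs' b a]
    ring
  have h5 : D = B' := by
    ext a b
    exact h4 a b
  rwa [h5] at h1

end Vale.Agent.P253.H202
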