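import Vale.Agent.P253.H202.Drop

/-!
P253: near a critical point with nonnegative weights all orbits of `-grad h` converge to critical
points of the same level.
-/

open scoped Manifold ContDiff Topology Bundle
open Set Metric Complex Filter Bundle IsManifold Manifold Module Vale.Agent.P253.Mfd
  Vale.Agent.P253.H577 Vale.Agent.P253.H22

set_option maxSynthPendingDepth 3
set_option linter.unusedSectionVars false

noncomputable section

namespace Vale.Agent.P253.H202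

variable {E : Type*} [NormedAddCommGroup E] [NormedSpace ℂ E] [FiniteDimensional ℂ E]
  {M : Type*} [MetricSpace M] [ChartedSpace E M]
  [IsManifold 𝓘(ℂ, E) 1 M] [IsManifold 𝓘(ℝ, E) ∞ M]
  [RiemannianBundle (fun x : M => TangentSpace 𝓘(ℝ, E) x)]
  [IsContMDiffRiemannianBundle 𝓘(ℝ, E) ∞ E (fun x : M => TangentSpace 𝓘(ℝ, E) x)]
  [IsRiemannianManifold 𝓘(ℝ, E) M]
  {ρ : ℝ → M → M} {h : M → ℝ} {γ : ℝ → M}
  {ι : Type*} [Fintype ι] {φ : E ≃L[ℂ] (ι → ℂ)} {m : ι → ℝ} {p : M}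

/-- the flow in a linearizing chart, as long as the linear flow stays in the target -/
theorem flow_lin (hρ : IsHolIsomFlow E ρ) {e₀ : OpenPartialHomeomorph M E}
    (he₀ : e₀ ∈ maximalAtlas 𝓘(ℂ, E) 1 M)
    (hequiv : ∀ θ : ℝ, ∀ x ∈ e₀.source, ρ θ x ∈ e₀.source ∧ e₀ (ρ θ x) = LE φ m (θ * I) (e₀ x))
    (hγ : IsMIntegralCurve (I := 𝓘(ℝ, E)) γ (W ρ)) {a b : ℝ} (h0 : (0:ℝ) ∈ Ioo a b) {z : E}
    (hγ0 : γ 0 = e₀.symm z) (hz : ∀ s : ℝ, s ∈ Ioo a b → LE φ m (s : ℂ) z ∈ e₀.target) {t : ℝ}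
    (ht : t ∈ Ioo a b) : γ t = e₀.symm (LE φ m (t : ℂ) z) := by
  have hcurve : IsMIntegralCurveOn (I := 𝓘(ℝ, E)) (fun s : ℝ => e₀.symm (LE φ m (s:ℂ) z)) (W ρ)
      (Ioo a b) := by
    intro s hs
    have h1 : HasDerivAt (fun s : ℝ => LE φ m (s:ℂ) z) (vF ρ e₀ (LE φ m (s:ℂ) z)) s := by
      rw [vF_linear hρ hequiv (hz s hs)]
      have h2 : HasDerivAt (fun s : ℝ => (s:ℂ)) 1 s := (hasDerivAt_id s).ofReal_comp
      have h3 := (hasDerivAt_LE (φ := φ) (m := m) (s:ℂ) z).scomp s h2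
      rw [one_smul] at h3
      exact h3
    exact (IntegralCurve.of_chart hρ he₀ h1 (hz s hs)).hasMFDerivWithinAt
  exact isMIntegralCurveOn_Ioo_eqOn_of_contMDiff_boundaryless (t₀ := 0) h0 (contMDiff_W hρ)
    (hγ.isMIntegralCurveOn (Ioo a b)) hcurve (by simp [hγ0, LE_zero]) ht

theorem norm_LE_nn (hm : ∀ j, 0 ≤ m j) {t : ℝ} (ht : t ≤ 0) (z : E) :
    ‖φ (LE φ m (t : ℂ) z)‖ ≤ ‖φ z‖ := by
  have h1 := norm_LE_le (φ := φ) (m := m) (t := t) (M := 1) (fun j => by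
    rw [Real.exp_le_one_iff]
    exact mul_nonpos_of_nonpos_of_nonneg ht (hm j)) z zero_le_one
  rwa [one_mul] at h1

/-- for nonnegative weights the linear flow stays in the target for negative times -/
theorem exists_interval (hm : ∀ j, 0 ≤ m j) {e₀ : OpenPartialHomeomorph M E} {δ : ℝ}
    (htgt : e₀.target = {z | ‖φ z‖ < δ}) {z : E} (hz : z ∈ e₀.target) :
    ∃ b : ℝ, 0 < b ∧ ∀ a : ℝ, ∀ s : ℝ, s ∈ Ioo a b → LE φ m (s : ℂ) z ∈ e₀.target := by
  have hzn : ‖φ z‖ < δ := by rw [htgt] at hz; exact hz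
  have hneg : ∀ s : ℝ, s ≤ 0 → LE φ m (s : ℂ) z ∈ e₀.target := by
    intro s hs
    rw [htgt]
    exact (norm_LE_nn hm hs z).trans_lt hzn
  have hc : Continuous (fun s : ℝ => LE φ m (s : ℂ) z) :=
    continuous_LE.comp (continuous_ofReal.prodMk continuous_const)
  obtain ⟨ε, hε, hεb⟩ : ∃ ε > 0, ∀ s : ℝ, |s| < ε → LE φ m (s : ℂ) z ∈ e₀.target := by
    have h1 : ∀ᶠ s : ℝ in 𝓝 0, LE φ m (s : ℂ) z ∈ e₀.target := by
      apply hc.continuousAt.eventually
      apply e₀.open_target.mem_nhds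
      simpa [LE_zero] using hz
    obtain ⟨ε, hε, h2⟩ := Metric.eventually_nhds_iff.1 h1
    exact ⟨ε, hε, fun s hs => h2 (by simpa [Real.dist_eq] using hs)⟩
  refine ⟨ε, hε, fun a s hs => ?_⟩
  by_cases hs0 : s ≤ 0
  · exact hneg s hs0
  · push Not at hs0
    exact hεb s (by rw [abs_of_pos hs0]; exact hs.2)

theorem real_smul_map (s : ℝ) (w : E) : φ (s • w) = s • φ w := by
  rw [← Complex.coe_smul, map_smul, Complex.coe_smul]

variable (φ m) in
/-- projection to the zero weight space -/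
def P0 (z : E) : E := φ.symm (fun j => if m j = 0 then φ z j else 0)

theorem P0_coord (z : E) (j : ι) : φ (P0 φ m z) j = if m j = 0 then φ z j else 0 := by
  simp [P0]

theorem norm_P0 (z : E) : ‖φ (P0 φ m z)‖ ≤ ‖φ z‖ := by
  rw [pi_norm_le_iff_of_nonneg (norm_nonneg _)]
  intro j
  rw [P0_coord]
  split_ifs
  · exact norm_le_pi_norm (φ z) j
  · rw [norm_zero]; exact norm_nonneg _

theorem tendsto_LE_P0 (hm : ∀ j, 0 ≤ m j) (z : E) :
    Tendsto (fun t : ℝ => LE φ m (t : ℂ) z) atBot (𝓝 (P0 φ m z)) := by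
  have h1 : Tendsto (fun t : ℝ => φ (LE φ m (t : ℂ) z)) atBot (𝓝 (φ (P0 φ m z))) := by
    rw [tendsto_pi_nhds]
    intro j
    simp only [LE_coord, P0_coord]
    by_cases hj : m j = 0
    · simp [hj]
    · rw [if_neg hj]
      have hj' : 0 < m j := lt_of_le_of_ne (hm j) (Ne.symm hj)
      have h2 : Tendsto (fun t : ℝ => Complex.exp (t * m j)) atBot (𝓝 0) := by
        rw [tendsto_zero_iff_norm_tendsto_zero]
        simp only [norm_exp_mul]
        have h3 : Tendsto (fun t : ℝ => t * m j) atBot atBot := tendsto_id.atBot_mul_const hj'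
        exact Real.tendsto_exp_atBot.comp h3
      have h3 := h2.mul_const (φ z j)
      rwa [zero_mul] at h3
  have h2 := (φ.symm.continuous.tendsto _).comp h1
  rw [ContinuousLinearEquiv.symm_apply_apply] at h2
  refine h2.congr fun t => ?_
  simp

/-- the potential on the zero weight space -/
theorem pot_P0 (hρ : IsHolIsomFlow E ρ) (hgrad : IsGradOf (E := E) ρ h)
    {e₀ : OpenPartialHomeomorph M E}
    (he₀ : e₀ ∈ maximalAtlas 𝓘(ℂ, E) 1 M) {δ : ℝ} (hp : p ∈ e₀.source) (hp0 : e₀ p = 0)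
    (htgt : e₀.target = {z | ‖φ z‖ < δ})
    (hequiv : ∀ θ : ℝ, ∀ x ∈ e₀.source, ρ θ x ∈ e₀.source ∧ e₀ (ρ θ x) = LE φ m (θ * I) (e₀ x))
    {z : E} (hz : z ∈ e₀.target) : h (e₀.symm (P0 φ m z)) = h p := by
  have hzn : ‖φ z‖ < δ := by rw [htgt] at hz; exact hz
  have hmem : ∀ s ∈ Icc (0:ℝ) 1, s • P0 φ m z ∈ e₀.target := by
    intro s hs
    rw [htgt]
    have h1 : φ (s • P0 φ m z) = s • φ (P0 φ m z) := real_smul_map s _
    simp only [mem_ofPred_eq, h1, norm_smul, Real.norm_of_nonneg hs.1]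
    calc s * ‖φ (P0 φ m z)‖ ≤ 1 * ‖φ z‖ := by
          gcongr
          · exact hs.2
          · exact norm_P0 z
      _ < δ := by rwa [one_mul]
  have hA : ∀ s : ℝ, AE φ m (s • P0 φ m z) = 0 := by
    intro s
    apply ext_coord (φ := φ)
    intro j
    have h1 : φ (s • P0 φ m z) = s • φ (P0 φ m z) := real_smul_map s _
    rw [AE_coord, h1, Pi.smul_apply, P0_coord, map_zero]
    split_ifs with hj
    · simp [hj]
    · simp
  have hder : ∀ s ∈ Icc (0:ℝ) 1, HasDerivAt (fun s : ℝ => h (e₀.symm (s • P0 φ m z))) 0 s := by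
    intro s hs
    have h1 := hgrad e₀ he₀ _ (hmem s hs)
    rw [vF_linear hρ hequiv (hmem s hs), hA, map_zero] at h1
    have h2 : HasDerivAt (fun s : ℝ => s • P0 φ m z) (P0 φ m z) s := by
      simpa using (hasDerivAt_id s).smul_const (P0 φ m z)
    have h3 := HasFDerivAt.comp_hasDerivAt (f := fun s : ℝ => s • P0 φ m z) s h1 h2
    exact h3
  have h1 := constant_of_has_deriv_right_zero (a := (0:ℝ)) (b := 1)
    (f := fun s : ℝ => h (e₀.symm (s • P0 φ m z)))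
    (fun s hs => (hder s hs).continuousAt.continuousWithinAt)
    (fun s hs => (hder s (Ico_subset_Icc_self hs)).hasDerivWithinAt) 1 (right_mem_Icc.2 zero_le_one)
  simp only [one_smul, zero_smul] at h1
  rw [h1, ← hp0, e₀.left_inv hp]

/-- near a critical point with nonnegative weights, the potential converges to the critical value
along all orbits of `-grad h` -/
theorem eventually_tendsto (hρ : IsHolIsomFlow E ρ)
    (hgrad : IsGradOf (E := E) ρ h) {e₀ : OpenPartialHomeomorph M E}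
    (he₀ : e₀ ∈ maximalAtlas 𝓘(ℂ, E) 1 M) {δ : ℝ} (hp : p ∈ e₀.source) (hp0 : e₀ p = 0)
    (htgt : e₀.target = {z | ‖φ z‖ < δ})
    (hequiv : ∀ θ : ℝ, ∀ x ∈ e₀.source, ρ θ x ∈ e₀.source ∧ e₀ (ρ θ x) = LE φ m (θ * I) (e₀ x))
    (hm : ∀ j, 0 ≤ m j) (hγ : IsMIntegralCurve (I := 𝓘(ℝ, E)) γ (W ρ)) (h0 : γ 0 ∈ e₀.source) :
    Tendsto (fun t => h (γ t)) atBot (𝓝 (h p)) := by
  have hz : e₀ (γ 0) ∈ e₀.target := e₀.map_source h0
  obtain ⟨b, hb, hint⟩ := exists_interval hm htgt hz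
  have hform : ∀ t : ℝ, t ≤ 0 → γ t = e₀.symm (LE φ m (t : ℂ) (e₀ (γ 0))) := fun t ht =>
    flow_lin hρ he₀ hequiv hγ (a := t - 1) (b := b) ⟨by linarith, hb⟩
      (e₀.left_inv h0).symm (hint (t - 1)) ⟨by linarith, by linarith⟩
  have hPt : P0 φ m (e₀ (γ 0)) ∈ e₀.target := by
    have hzn : ‖φ (e₀ (γ 0))‖ < δ := by rw [htgt] at hz; exact hz
    rw [htgt]
    exact (norm_P0 _).trans_lt hzn
  have h1 : ContinuousAt (fun y : E => h (e₀.symm y)) (P0 φ m (e₀ (γ 0))) :=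
    (hgrad e₀ he₀ _ hPt).continuousAt
  have h2 := h1.tendsto.comp (tendsto_LE_P0 (φ := φ) hm (e₀ (γ 0)))
  rw [pot_P0 hρ hgrad he₀ hp hp0 htgt hequiv hz] at h2
  refine h2.congr' ?_
  filter_upwards [eventually_le_atBot 0] with t ht
  simp only [Function.comp_apply]
  rw [← hform t ht]

end Vale.Agent.P253.H202
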