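import Vale.Agent.P253.H202.Psd

/-!
P253: the dichotomy for the solutions of `w' = N w`, `N` symmetric and nonincreasing.
-/

open Filter Set
open scoped Topology

set_option linter.unusedSectionVars false

noncomputable section

namespace Vale.Agent.P253.H202

variable {H : Type*} [NormedAddCommGroup H] [InnerProductSpace ℝ H] [FiniteDimensional ℝ H]

/-- the data of the lemma -/
structure Sys (N K : ℝ → H →L[ℝ] H) (w : ℝ → H) (c : ℝ) : Prop where
  symm : ∀ t, Sym (N t)
  dN : ∀ t, HasDerivAt N (K t) t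
  neg : ∀ t, Nng (-K t)
  dw : ∀ t, HasDerivAt w (N t (w t)) t
  ne : ∀ t, w t ≠ 0
  top : ∀ a : H, inner ℝ (N 0 a) a ≤ (c - 1) * inner ℝ a a

/-- `P = c - N` -/
def Pop (N : ℝ → H →L[ℝ] H) (c t : ℝ) : H →L[ℝ] H := c • ContinuousLinearMap.id ℝ H - N t

/-- `R = (c - N)⁻¹` -/
def Rop (N : ℝ → H →L[ℝ] H) (c t : ℝ) : H →L[ℝ] H := Ring.inverse (Pop N c t)

variable {N K : ℝ → H →L[ℝ] H} {w : ℝ → H} {c : ℝ}

theorem Pop_apply (t : ℝ) (a : H) : Pop N c t a = c • a - N t a := by
  simp [Pop]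

namespace Sys

theorem hasDerivAt_apply (h : Sys N K w c) (t : ℝ) (a b : H) :
    HasDerivAt (fun t => inner ℝ (N t a) b) (inner ℝ (K t a) b) t := by
  have h1 : HasDerivAt (fun t => N t a) (K t a) t := by
    have h0 := (h.dN t).clm_apply (hasDerivAt_const t a)
    simpa using h0
  have h2 := h1.inner ℝ (hasDerivAt_const t b)
  simpa using h2

theorem symmK (h : Sys N K w c) (t : ℝ) : Sym (K t) := by
  intro a b
  have h1 := h.hasDerivAt_apply t a b
  have h2 := h.hasDerivAt_apply t b a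
  have h3 : (fun t => inner ℝ (N t a) b) = fun t => inner ℝ (N t b) a := by
    funext t
    rw [h.symm t a b, real_inner_comm]
  rw [h3] at h1
  rw [h1.unique h2, real_inner_comm]

theorem anti (h : Sys N K w c) (a : H) : Antitone fun t => inner ℝ (N t a) a := by
  refine antitone_of_deriv_nonpos (fun t => (h.hasDerivAt_apply t a a).differentiableAt)
    fun t => ?_
  rw [(h.hasDerivAt_apply t a a).deriv]
  have := h.neg t a
  simp only [neg_apply, inner_neg_left] at this
  linarith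

theorem top_le (h : Sys N K w c) {t : ℝ} (ht : 0 ≤ t) (a : H) :
    inner ℝ (N t a) a ≤ (c - 1) * inner ℝ a a := (h.anti a ht).trans (h.top a)

theorem P_ge (h : Sys N K w c) {t : ℝ} (ht : 0 ≤ t) (a : H) :
    inner ℝ a a ≤ inner ℝ (Pop N c t a) a := by
  rw [Pop_apply, inner_sub_left, real_inner_smul_left]
  linarith [h.top_le ht a]

theorem symmP (h : Sys N K w c) (t : ℝ) : Sym (Pop N c t) := by
  intro a b
  rw [Pop_apply, Pop_apply, inner_sub_left, inner_sub_right, real_inner_smul_left,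
    real_inner_smul_right, h.symm t]

theorem isUnit_P (h : Sys N K w c) {t : ℝ} (ht : 0 ≤ t) : IsUnit (Pop N c t) := by
  have hinj : Function.Injective (Pop N c t : H →ₗ[ℝ] H) := by
    rw [← LinearMap.ker_eq_bot, LinearMap.ker_eq_bot']
    intro a ha
    have h1 := h.P_ge ht a
    have h2 : Pop N c t a = 0 := ha
    rw [h2, inner_zero_left] at h1
    exact inner_self_eq_zero.1 (le_antisymm h1 real_inner_self_nonneg)
  set L : H ≃ₗ[ℝ] H := LinearEquiv.ofInjectiveEndo (Pop N c t : H →ₗ[ℝ] H) hinj with hL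
  have h3 : (L.toContinuousLinearEquiv : H →L[ℝ] H) = Pop N c t := by
    ext a
    rfl
  rw [← h3]
  exact (ContinuousLinearEquiv.toUnit L.toContinuousLinearEquiv).isUnit

theorem P_R (h : Sys N K w c) {t : ℝ} (ht : 0 ≤ t) (a : H) : Pop N c t (Rop N c t a) = a := by
  have h1 := Ring.mul_inverse_cancel _ (h.isUnit_P ht)
  exact congrArg (fun T : H →L[ℝ] H => T a) h1

theorem R_P (h : Sys N K w c) {t : ℝ} (ht : 0 ≤ t) (a : H) : Rop N c t (Pop N c t a) = a := by
  have h1 := Ring.inverse_mul_cancel _ (h.isUnit_P ht)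
  exact congrArg (fun T : H →L[ℝ] H => T a) h1

theorem symmR (h : Sys N K w c) {t : ℝ} (ht : 0 ≤ t) : Sym (Rop N c t) := by
  intro a b
  have h1 := h.symmP t (Rop N c t a) (Rop N c t b)
  rw [h.P_R ht, h.P_R ht] at h1
  exact h1.symm

theorem R_sq_le (h : Sys N K w c) {t : ℝ} (ht : 0 ≤ t) (a : H) :
    inner ℝ (Rop N c t a) (Rop N c t a) ≤ inner ℝ (Rop N c t a) a := by
  have h1 := h.P_ge ht (Rop N c t a)
  rw [h.P_R ht] at h1
  rwa [real_inner_comm (Rop N c t a) a] at h1

theorem nngR (h : Sys N K w c) {t : ℝ} (ht : 0 ≤ t) : Nng (Rop N c t) := fun a =>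
  real_inner_self_nonneg.trans (h.R_sq_le ht a)

theorem R_le (h : Sys N K w c) {t : ℝ} (ht : 0 ≤ t) (a : H) :
    inner ℝ (Rop N c t a) a ≤ inner ℝ a a := by
  have h1 := h.R_sq_le ht a
  have h2 := real_inner_mul_inner_self_le (Rop N c t a) a
  have h3 := h.nngR ht a
  have h4 : 0 ≤ inner ℝ a a := real_inner_self_nonneg
  rcases h3.eq_or_lt with h0 | h0
  · rw [← h0]; exact h4
  · have h5 : inner ℝ (Rop N c t a) a * inner ℝ (Rop N c t a) a ≤
        inner ℝ (Rop N c t a) a * inner ℝ a a := h2.trans (by gcongr)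
    exact le_of_mul_le_mul_left h5 h0

theorem hasDerivAt_R (h : Sys N K w c) {t : ℝ} (ht : 0 ≤ t) :
    HasDerivAt (Rop N c) (Rop N c t * K t * Rop N c t) t := by
  obtain ⟨u, hu⟩ := h.isUnit_P ht
  have h1 : HasDerivAt (Pop N c) (-K t) t := by
    exact (h.dN t).const_sub (c • ContinuousLinearMap.id ℝ H)
  have h2 : HasFDerivAt Ring.inverse
      (-ContinuousLinearMap.mulLeftRight ℝ (H →L[ℝ] H) ↑u⁻¹ ↑u⁻¹) (Pop N c t) := by
    rw [← hu]
    exact hasFDerivAt_ringInverse (𝕜 := ℝ) u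
  have h3 := h2.comp_hasDerivAt t h1
  have h4 : (↑u⁻¹ : H →L[ℝ] H) = Rop N c t := by
    rw [Rop, ← hu, Ring.inverse_unit]
  rw [h4] at h3
  refine h3.congr_deriv ?_
  simp

end Sys

end Vale.Agent.P253.H202
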