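import Vale.Agent.P253.H202.Dich
import Mathlib.Analysis.Normed.Operator.BanachSteinhaus

/-!
P253: the dichotomy for the solutions of `w' = N w`: the scalar functions.
-/

open Filter Set
open scoped Topology

set_option linter.unusedSectionVars false

noncomputable section

namespace Vale.Agent.P253.H202

variable {H : Type*} [NormedAddCommGroup H] [InnerProductSpace ℝ H] [FiniteDimensional ℝ H]
  {N K : ℝ → H →L[ℝ] H} {w : ℝ → H} {c : ℝ}

/-- squared length -/
def gg (w : ℝ → H) (t : ℝ) : ℝ := inner ℝ (w t) (w t)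
/-- `⟪R w, w⟫` -/
def aa (N : ℝ → H →L[ℝ] H) (c : ℝ) (w : ℝ → H) (t : ℝ) : ℝ := inner ℝ (Rop N c t (w t)) (w t)
/-- `⟪R w, R w⟫` -/
def bb (N : ℝ → H →L[ℝ] H) (c : ℝ) (w : ℝ → H) (t : ℝ) : ℝ :=
  inner ℝ (Rop N c t (w t)) (Rop N c t (w t))
/-- `⟪P w, w⟫` -/
def qq (N : ℝ → H →L[ℝ] H) (c : ℝ) (w : ℝ → H) (t : ℝ) : ℝ := inner ℝ (Pop N c t (w t)) (w t)
/-- the trace of `R` -/
def tau (N : ℝ → H →L[ℝ] H) (c t : ℝ) : ℝ := tra (Rop N c t)
/-- covariance -/
def cov (N : ℝ → H →L[ℝ] H) (c : ℝ) (w : ℝ → H) (t : ℝ) : ℝ :=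
  aa N c w t * qq N c w t / gg w t ^ 2 - 1

namespace Sys

variable (h : Sys N K w c)
include h

theorem gg_pos (t : ℝ) : 0 < gg w t := real_inner_self_pos.2 (h.ne t)

theorem hasDerivAt_gg (t : ℝ) : HasDerivAt (gg w) (2 * inner ℝ (N t (w t)) (w t)) t := by
  have h1 := (h.dw t).inner ℝ (h.dw t)
  refine h1.congr_deriv ?_
  rw [real_inner_comm (N t (w t)) (w t)]
  ring

theorem N_eq (t : ℝ) : inner ℝ (N t (w t)) (w t) = c * gg w t - qq N c w t := by
  rw [qq, gg, Pop_apply, inner_sub_left, real_inner_smul_left]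
  ring

theorem aa_pos {t : ℝ} (ht : 0 ≤ t) : 0 < aa N c w t := by
  have h1 := h.R_sq_le ht (w t)
  have h2 : Rop N c t (w t) ≠ 0 := by
    intro h3
    have h4 := h.P_R ht (w t)
    rw [h3, map_zero] at h4
    exact h.ne t h4.symm
  exact lt_of_lt_of_le (real_inner_self_pos.2 h2) h1

theorem aa_le {t : ℝ} (ht : 0 ≤ t) : aa N c w t ≤ gg w t := h.R_le ht (w t)

theorem cs_ab {t : ℝ} : aa N c w t ^ 2 ≤ bb N c w t * gg w t := by
  have := real_inner_mul_inner_self_le (Rop N c t (w t)) (w t)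
  rw [sq]
  exact this

/-- the basic inequality -/
theorem cov_ge_aux {t : ℝ} (ht : 0 ≤ t) :
    bb N c w t * gg w t - aa N c w t ^ 2 ≤ aa N c w t * qq N c w t - gg w t ^ 2 := by
  have hA := h.aa_pos ht
  have hG := h.gg_pos t
  have hAG := h.aa_le ht
  have hcs := h.cs_ab (t := t)
  set A := aa N c w t with hAd
  set G := gg w t with hGd
  set B := bb N c w t with hBd
  set Q := qq N c w t with hQd
  have key : ∀ s : ℝ, G - 2 * s * A + s ^ 2 * B ≤ Q - 2 * s * G + s ^ 2 * A := by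
    intro s
    have h1 := h.P_ge ht (w t - s • Rop N c t (w t))
    rw [map_sub, map_smul, h.P_R ht] at h1
    simp only [inner_sub_left, inner_sub_right, real_inner_smul_left, real_inner_smul_right] at h1
    have e1 : inner ℝ (Pop N c t (w t)) (Rop N c t (w t)) = G := by
      rw [h.symmP t, h.P_R ht]
      rfl
    have e2 : inner ℝ (w t) (Rop N c t (w t)) = A := by
      rw [real_inner_comm]
      rfl
    have e3 : inner ℝ (Rop N c t (w t)) (w t) = A := rfl
    have e4 : inner ℝ (w t) (w t) = G := rfl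
    have e5 : inner ℝ (Rop N c t (w t)) (Rop N c t (w t)) = B := rfl
    have e6 : inner ℝ (Pop N c t (w t)) (w t) = Q := rfl
    rw [e1, e2, e3, e4, e5, e6] at h1
    linarith
  have h2 := key (G / A)
  have h3 : G ^ 2 * A - G * A ^ 2 + G ^ 2 * B ≤ A ^ 2 * Q := by
    have h4 := mul_le_mul_of_nonneg_left h2 (sq_nonneg A)
    have e1 : A ^ 2 * (G - 2 * (G / A) * A + (G / A) ^ 2 * B) = - G * A ^ 2 + G ^ 2 * B := by
      field_simp
      ring
    have e2 : A ^ 2 * (Q - 2 * (G / A) * G + (G / A) ^ 2 * A) = A ^ 2 * Q - G ^ 2 * A := by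
      field_simp
      ring
    rw [e1, e2] at h4
    linarith
  have h5 : A * (B * G - A ^ 2) ≤ A * (A * Q - G ^ 2) := by
    have h6 : A * (B * G - A ^ 2) ≤ G * (B * G - A ^ 2) :=
      mul_le_mul_of_nonneg_right hAG (by linarith)
    nlinarith
  exact le_of_mul_le_mul_left h5 hA

theorem cov_nonneg {t : ℝ} (ht : 0 ≤ t) : 0 ≤ cov N c w t := by
  have h1 := h.cov_ge_aux ht
  have h2 := h.cs_ab (t := t)
  have hG := h.gg_pos t
  rw [cov, sub_nonneg, le_div_iff₀ (by positivity)]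
  linarith

theorem hasDerivAt_aa {t : ℝ} (ht : 0 ≤ t) : HasDerivAt (aa N c w)
    (inner ℝ (K t (Rop N c t (w t))) (Rop N c t (w t)) + 2 * c * aa N c w t - 2 * gg w t) t := by
  have h1 : HasDerivAt (fun t => Rop N c t (w t))
      ((Rop N c t * K t * Rop N c t) (w t) + Rop N c t (N t (w t))) t :=
    (h.hasDerivAt_R ht).clm_apply (h.dw t)
  have h2 := h1.inner ℝ (h.dw t)
  refine h2.congr_deriv ?_
  have e0 : N t (w t) = c • w t - Pop N c t (w t) := by rw [Pop_apply]; abel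
  have e1 : inner ℝ (Rop N c t (N t (w t))) (w t) = inner ℝ (Rop N c t (w t)) (N t (w t)) := by
    rw [h.symmR ht, real_inner_comm]
  have e2 : inner ℝ (Rop N c t (w t)) (N t (w t)) = c * aa N c w t - gg w t := by
    rw [e0, inner_sub_right, real_inner_smul_right, ← h.symmP t, h.P_R ht]
    rfl
  have e3 : inner ℝ ((Rop N c t * K t * Rop N c t) (w t)) (w t) =
      inner ℝ (K t (Rop N c t (w t))) (Rop N c t (w t)) := by
    change inner ℝ (Rop N c t (K t (Rop N c t (w t)))) (w t) = _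
    rw [h.symmR ht]
  rw [inner_add_left, e3, e1, e2]
  ring

theorem hasDerivAt_tau {t : ℝ} (ht : 0 ≤ t) : HasDerivAt (tau N c)
    (tra (Rop N c t * K t * Rop N c t)) t := by
  unfold tau tra
  refine HasDerivAt.fun_sum fun i _ => ?_
  have h1 : HasDerivAt (fun t => Rop N c t (stdOrthonormalBasis ℝ H i))
      ((Rop N c t * K t * Rop N c t) (stdOrthonormalBasis ℝ H i)) t := by
    have h0 := (h.hasDerivAt_R ht).clm_apply (hasDerivAt_const t (stdOrthonormalBasis ℝ H i))
    simpa using h0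
  have h2 := h1.inner ℝ (hasDerivAt_const t (stdOrthonormalBasis ℝ H i))
  simpa using h2

theorem nng_RKR {t : ℝ} (ht : 0 ≤ t) : Nng (-(Rop N c t * K t * Rop N c t)) := by
  intro a
  have h1 := h.neg t (Rop N c t a)
  have h2 : inner ℝ ((Rop N c t * K t * Rop N c t) a) a =
      inner ℝ (K t (Rop N c t a)) (Rop N c t a) := by
    change inner ℝ (Rop N c t (K t (Rop N c t a))) a = _
    rw [h.symmR ht]
  simp only [neg_apply, inner_neg_left] at h1 ⊢
  rw [h2]
  exact h1

theorem symm_RKR {t : ℝ} (ht : 0 ≤ t) : Sym (-(Rop N c t * K t * Rop N c t)) := by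
  intro a b
  simp only [neg_apply, inner_neg_left, inner_neg_right]
  congr 1
  change inner ℝ (Rop N c t (K t (Rop N c t a))) b = inner ℝ a (Rop N c t (K t (Rop N c t b)))
  rw [h.symmR ht, h.symmK t, h.symmR ht]

/-- the monotone function -/
theorem hasDerivAt_F {t : ℝ} (ht : 0 ≤ t) : ∃ d, 2 * cov N c w t ≤ d ∧
    HasDerivAt (fun t => aa N c w t / gg w t - tau N c t) d t := by
  have hG := h.gg_pos t
  have h1 := ((h.hasDerivAt_aa ht).div (h.hasDerivAt_gg t) hG.ne').sub (h.hasDerivAt_tau ht)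
  refine ⟨_, ?_, h1⟩
  rw [h.N_eq t]
  have h2 := psd_le_tra (h.symm_RKR ht) (h.nng_RKR ht) (w t)
  have e2 : inner ℝ ((-(Rop N c t * K t * Rop N c t)) (w t)) (w t) =
      - inner ℝ (K t (Rop N c t (w t))) (Rop N c t (w t)) := by
    rw [neg_apply, inner_neg_left]
    congr 1
    change inner ℝ (Rop N c t (K t (Rop N c t (w t)))) (w t) = _
    rw [h.symmR ht]
  have e3 : tra (-(Rop N c t * K t * Rop N c t)) = - tra (Rop N c t * K t * Rop N c t) := by
    simp [tra, inner_neg_left]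
  rw [e2, e3] at h2
  set k := inner ℝ (K t (Rop N c t (w t))) (Rop N c t (w t)) with hk
  set T := tra (Rop N c t * K t * Rop N c t) with hT
  have e4 : inner ℝ (w t) (w t) = gg w t := rfl
  rw [e4] at h2
  have h3 : T ≤ k / gg w t := by
    rw [le_div_iff₀ hG]
    linarith
  have e5 : ((k + 2 * c * aa N c w t - 2 * gg w t) * gg w t -
      aa N c w t * (2 * (c * gg w t - qq N c w t))) / gg w t ^ 2 =
      k / gg w t + 2 * cov N c w t := by
    rw [cov]
    field_simp
    ring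
  rw [e5]
  linarith

end Sys

end Vale.Agent.P253.H202
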