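import Vale.Agent.P253.H202.Dich2

/-!
P253: the dichotomy for the solutions of `w' = N w`: limits and conclusion.
-/

open Filter Set
open scoped Topology

set_option linter.unusedSectionVars false

noncomputable section

namespace Vale.Agent.P253.H202

/-- a monotone bounded function on a half line converges -/
theorem exists_lim_mono {f : ℝ → ℝ} (hf : MonotoneOn f (Ici 0)) {B : ℝ}
    (hB : ∀ t, 0 ≤ t → f t ≤ B) : ∃ l, Tendsto f atTop (𝓝 l) ∧ ∀ t, 0 ≤ t → f t ≤ l := by
  set g : ℝ → ℝ := fun t => f (max t 0) with hg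
  have hgm : Monotone g := fun a b hab =>
    hf (le_max_right a 0) (le_max_right b 0) (max_le_max hab le_rfl)
  have hbd : BddAbove (range g) := ⟨B, by rintro _ ⟨t, rfl⟩; exact hB _ (le_max_right t 0)⟩
  have h1 := tendsto_atTop_ciSup hgm hbd
  have h2 : g =ᶠ[atTop] f := by
    filter_upwards [eventually_ge_atTop 0] with t ht
    simp [hg, max_eq_left ht]
  refine ⟨⨆ i, g i, h1.congr' h2, fun t ht => ?_⟩
  have h3 : f t = g t := by simp [hg, max_eq_left ht]
  rw [h3]
  exact le_ciSup hbd t

theorem exists_lim_anti {f : ℝ → ℝ} (hf : AntitoneOn f (Ici 0)) {B : ℝ}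
    (hB : ∀ t, 0 ≤ t → B ≤ f t) : ∃ l, Tendsto f atTop (𝓝 l) ∧ ∀ t, 0 ≤ t → l ≤ f t := by
  obtain ⟨l, h1, h2⟩ := exists_lim_mono (f := fun t => -f t)
    (fun a ha b hb hab => neg_le_neg (hf ha hb hab)) (B := -B) (fun t ht => neg_le_neg (hB t ht))
  refine ⟨-l, ?_, fun t ht => by have := h2 t ht; linarith⟩
  simpa using h1.neg

variable {H : Type*} [NormedAddCommGroup H] [InnerProductSpace ℝ H] [FiniteDimensional ℝ H]
  {N K : ℝ → H →L[ℝ] H} {w : ℝ → H} {c : ℝ}

namespace Sys

variable (h : Sys N K w c)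
include h

theorem antitoneOn_R (a : H) : AntitoneOn (fun t => inner ℝ (Rop N c t a) a) (Ici 0) := by
  have hd : ∀ t ∈ Ici (0:ℝ), HasDerivAt (fun t => inner ℝ (Rop N c t a) a)
      (inner ℝ ((Rop N c t * K t * Rop N c t) a) a) t := by
    intro t ht
    have h0 := (h.hasDerivAt_R ht).clm_apply (hasDerivAt_const t a)
    have h2 := h0.inner ℝ (hasDerivAt_const t a)
    simpa using h2
  refine antitoneOn_of_deriv_nonpos (convex_Ici 0)
    (fun t ht => (hd t ht).continuousAt.continuousWithinAt)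
    (fun t ht => (hd t (interior_subset ht)).differentiableAt.differentiableWithinAt)
    fun t ht => ?_
  rw [(hd t (interior_subset ht)).deriv]
  have := h.nng_RKR (interior_subset ht) a
  simp only [neg_apply, inner_neg_left] at this
  linarith

theorem exists_form_lim (a b : H) : ∃ l, Tendsto (fun t => inner ℝ (Rop N c t a) b) atTop (𝓝 l) := by
  obtain ⟨l1, h1, -⟩ := exists_lim_anti (h.antitoneOn_R (a + b)) (B := 0)
    (fun t ht => h.nngR ht _)
  obtain ⟨l2, h2, -⟩ := exists_lim_anti (h.antitoneOn_R (a - b)) (B := 0)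
    (fun t ht => h.nngR ht _)
  refine ⟨(l1 - l2) / 4, ((h1.sub h2).div_const 4).congr' ?_⟩
  filter_upwards [eventually_ge_atTop 0] with t ht
  have e : inner ℝ (Rop N c t b) a = inner ℝ (Rop N c t a) b := by
    rw [h.symmR ht b a, real_inner_comm]
  simp only [map_add, map_sub, inner_add_left, inner_add_right, inner_sub_left, inner_sub_right, e]
  ring

/-- the limit of `R` -/
theorem exists_R_lim : ∃ R : H →L[ℝ] H, Sym R ∧ (∀ a b, Tendsto (fun t => inner ℝ (Rop N c t a) b)
    atTop (𝓝 (inner ℝ (R a) b))) := by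
  classical
  choose l hl using fun a b => h.exists_form_lim a b
  have hf : ∀ a : H, Tendsto (fun t => Rop N c t a) atTop
      (𝓝 (∑ i, l a (stdOrthonormalBasis ℝ H i) • stdOrthonormalBasis ℝ H i)) := by
    intro a
    have h1 : (fun t => Rop N c t a) = fun t => ∑ i,
        inner ℝ (Rop N c t a) (stdOrthonormalBasis ℝ H i) • stdOrthonormalBasis ℝ H i := by
      funext t
      conv_lhs => rw [← (stdOrthonormalBasis ℝ H).sum_repr' (Rop N c t a)]
      refine Finset.sum_congr rfl fun i _ => ?_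
      rw [real_inner_comm]
    rw [h1]
    exact tendsto_finsetSum _ fun i _ => (hl a _).smul_const _
  set R : H →L[ℝ] H := LinearMap.toContinuousLinearMap
    (linearMapOfTendsto (fun a => ∑ i, l a (stdOrthonormalBasis ℝ H i) • stdOrthonormalBasis ℝ H i)
      (fun t => (Rop N c t : H →ₗ[ℝ] H)) (l := atTop) (tendsto_pi_nhds.2 fun a => hf a)) with hR
  have hRa : ∀ a, Tendsto (fun t => Rop N c t a) atTop (𝓝 (R a)) := fun a => hf a
  have hRab : ∀ a b, Tendsto (fun t => inner ℝ (Rop N c t a) b) atTop (𝓝 (inner ℝ (R a) b)) :=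
    fun a b => (hRa a).inner tendsto_const_nhds
  refine ⟨R, fun a b => ?_, hRab⟩
  have h1 := hRab a b
  have h2 : Tendsto (fun t => inner ℝ a (Rop N c t b)) atTop (𝓝 (inner ℝ a (R b))) :=
    tendsto_const_nhds.inner (hRa b)
  refine tendsto_nhds_unique h1 (h2.congr' ?_)
  filter_upwards [eventually_ge_atTop 0] with t ht
  exact (h.symmR ht a b).symm

end Sys

end Vale.Agent.P253.H202
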