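import Vale.Agent.P253.H202.Dich3

/-!
P253: the dichotomy for the solutions of `w' = N w`, `N` symmetric and nonincreasing:
exponential decay or a positive lower bound.
-/

open Filter Set
open scoped Topology

set_option linter.unusedSectionVars false

noncomputable section

namespace Vale.Agent.P253.H202

variable {H : Type*} [NormedAddCommGroup H] [InnerProductSpace ℝ H] [FiniteDimensional ℝ H]
  {N K : ℝ → H →L[ℝ] H} {w : ℝ → H} {c : ℝ}

/-- `|E u|² ≤ tr E ⟪E u, u⟫` for a nonnegative symmetric operator -/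
theorem sq_le_tra {A : H →L[ℝ] H} (hs : Sym A) (hp : Nng A) (a : H) :
    inner ℝ (A a) (A a) ≤ tra A * inner ℝ (A a) a := by
  have h2 : inner ℝ (A a) (A a) = ∑ i, (inner ℝ (A a) (stdOrthonormalBasis ℝ H i)) ^ 2 := by
    rw [← (stdOrthonormalBasis ℝ H).sum_inner_mul_inner (A a) (A a)]
    refine Finset.sum_congr rfl fun i _ => ?_
    rw [real_inner_comm (A a) (stdOrthonormalBasis ℝ H i), sq]
  rw [h2, tra, Finset.sum_mul]
  refine Finset.sum_le_sum fun i _ => ?_
  have := cs_psd hs hp a (stdOrthonormalBasis ℝ H i)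
  linarith [mul_comm (inner ℝ (A a) a) (inner ℝ (A (stdOrthonormalBasis ℝ H i))
    (stdOrthonormalBasis ℝ H i))]

/-- the gap passes from the limit to an approximation from above -/
theorem gap_perturb {X E : H →L[ℝ] H} {k : ℝ}
    (hk : ∀ u : H, k * inner ℝ (X u) u ≤ inner ℝ (X u) (X u)) (hs : Sym E) (hp : Nng E)
    (ht : tra E ≤ k / 2) (u : H) :
    k * inner ℝ ((X - E) u) u ≤ 2 * inner ℝ ((X - E) u) ((X - E) u) := by
  have h1 := hk u
  have h2 := sq_le_tra hs hp u
  have h3 := hp u
  have h4 : inner ℝ (X u) (X u) ≤ 2 * inner ℝ ((X - E) u) ((X - E) u) +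
      2 * inner ℝ (E u) (E u) := by
    have h5 : (0:ℝ) ≤ inner ℝ ((X - E) u - E u) ((X - E) u - E u) := real_inner_self_nonneg
    have h6 : X u = (X - E) u + E u := by simp
    rw [h6]
    have h7 := real_inner_comm ((X - E) u) (E u)
    simp only [inner_add_left, inner_add_right, inner_sub_left, inner_sub_right] at h5 ⊢
    linarith
  have h5 : inner ℝ ((X - E) u) u = inner ℝ (X u) u - inner ℝ (E u) u := by
    rw [sub_apply, inner_sub_left]
  rw [h5]
  nlinarith

/-- the scalar inequality behind the lower bound -/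
theorem scalar_key {A B G Q c k : ℝ} (hA : 0 < A) (hG : 0 < G) (hc : 0 < c) (hk0 : 0 < k)
    (haux : B * G - A ^ 2 ≤ A * Q - G ^ 2) (hcov : 0 ≤ A * Q / G ^ 2 - 1)
    (hgap : k * (1 / c * G - A) ≤ 2 * ((1 / c) * ((1 / c) * G - A) - ((1 / c) * A - B)))
    (h1a : 1 / c - A / G < k / 4) (h1b : 1 / c - A / G < 1 / (2 * c)) :
    Q / G - c ≤ 2 * c * (1 + 4 * c / k) * (A * Q / G ^ 2 - 1) := by
  set C : ℝ := 2 * c * (1 + 4 * c / k) with hC
  have hC0 : 0 < C := by positivity
  set v : ℝ := A * Q / G ^ 2 - 1 with hv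
  set r := A / G with hr
  have hr0 : 0 < r := div_pos hA hG
  have hAr : A = r * G := by rw [hr]; field_simp
  set δ := 1 / c - r with hδd
  have hcr : 1 - c * r = c * δ := by rw [hδd]; field_simp
  set V := (B * G - A ^ 2) / G ^ 2 with hV
  have hVc : V ≤ v := by
    rw [hV, hv, div_sub_one (by positivity)]
    gcongr
  have hB : B = (V + r ^ 2) * G := by
    rw [hV, hr]
    field_simp
    ring
  have hgap2 : k * δ ≤ 2 * (V + δ ^ 2) := by
    have h5 : (k * δ) * G ≤ (2 * (V + δ ^ 2)) * G := by
      calc (k * δ) * G = k * (1 / c * G - A) := by rw [hAr, hδd]; ring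
        _ ≤ _ := hgap
        _ = (2 * (V + δ ^ 2)) * G := by rw [hB, hAr, hδd]; ring
    exact le_of_mul_le_mul_right h5 hG
  have hQG : Q / G = (1 + v) / r := by
    rw [hv, hAr]
    field_simp
    ring
  have hgoal : Q / G - c = (v + c * δ) / r := by
    rw [hQG, ← hcr]
    field_simp
    ring
  rw [hgoal, div_le_iff₀ hr0]
  clear_value v V
  rcases le_or_gt δ 0 with hd | hd
  · have h6 : 1 / c ≤ r := by rw [hδd] at hd; linarith
    have h7 : 1 ≤ c * r := by
      rw [div_le_iff₀ hc] at h6
      linarith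
    have h8 : 0 ≤ 4 * c / k := by positivity
    have hcd : c * δ ≤ 0 := mul_nonpos_of_nonneg_of_nonpos hc.le hd
    have h9 : 0 ≤ v * (c * r) := by positivity
    calc v + c * δ ≤ v * 1 := by linarith
      _ ≤ v * (c * r) := by gcongr
      _ ≤ C * v * r := by
        have h10 : C * v * r = 2 * (v * (c * r)) + 2 * (v * (c * r)) * (4 * c / k) := by
          rw [hC]; ring
        have h11 := mul_nonneg h9 h8
        rw [h10]
        linarith
  · have h6 : 1 / (2 * c) ≤ r := by
      have h12 : 1 / c = 1 / (2 * c) + 1 / (2 * c) := by field_simp; norm_num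
      rw [hδd] at h1b
      linarith
    have h7 : 1 ≤ 2 * c * r := by
      rw [div_le_iff₀ (by positivity)] at h6
      linarith
    have h8 : δ ≤ 4 / k * v := by
      have h9 : δ * k ≤ 4 * V := by
        have h13 : δ ^ 2 ≤ δ * (k / 4) := by
          rw [sq]
          exact mul_le_mul_of_nonneg_left h1a.le hd.le
        linarith
      have h10 : δ ≤ 4 / k * V := by
        rw [div_mul_eq_mul_div, le_div_iff₀ hk0]
        exact h9
      exact h10.trans (by gcongr)
    calc v + c * δ ≤ v + c * (4 / k * v) := by gcongr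
      _ = (1 + 4 * c / k) * v * 1 := by ring
      _ ≤ (1 + 4 * c / k) * v * (2 * c * r) := by gcongr
      _ = C * v * r := by rw [hC]; ring

namespace Sys

variable (h : Sys N K w c)
include h

theorem contG : Continuous (gg w) :=
  continuous_iff_continuousAt.2 fun t => (h.hasDerivAt_gg t).continuousAt

theorem tau_nonneg {t : ℝ} (ht : 0 ≤ t) : 0 ≤ tau N c t := tra_nonneg (h.nngR ht)

theorem F_le_one {t : ℝ} (ht : 0 ≤ t) : aa N c w t / gg w t - tau N c t ≤ 1 := by
  have h1 : aa N c w t / gg w t ≤ 1 := (div_le_one (h.gg_pos t)).2 (h.aa_le ht)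
  linarith [h.tau_nonneg ht]

theorem F_mono : MonotoneOn (fun t => aa N c w t / gg w t - tau N c t) (Ici 0) := by
  refine monotoneOn_of_deriv_nonneg (convex_Ici 0) (fun t ht => ?_) (fun t ht => ?_)
    fun t ht => ?_
  · obtain ⟨d, -, hd⟩ := h.hasDerivAt_F (t := t) ht
    exact hd.continuousAt.continuousWithinAt
  · obtain ⟨d, -, hd⟩ := h.hasDerivAt_F (t := t) (interior_subset ht)
    exact hd.differentiableAt.differentiableWithinAt
  · obtain ⟨d, h1, hd⟩ := h.hasDerivAt_F (t := t) (interior_subset ht)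
    rw [hd.deriv]
    linarith [h.cov_nonneg (t := t) (interior_subset ht)]

theorem tau_anti : AntitoneOn (tau N c) (Ici 0) := by
  intro a ha b hb hab
  unfold tau tra
  exact Finset.sum_le_sum fun i _ => h.antitoneOn_R (stdOrthonormalBasis ℝ H i) ha hb hab

theorem exists_r_lim : ∃ l, Tendsto (fun t => aa N c w t / gg w t) atTop (𝓝 l) := by
  obtain ⟨l1, h1, -⟩ := exists_lim_mono h.F_mono (B := 1) fun t ht => h.F_le_one ht
  obtain ⟨l2, h2, -⟩ := exists_lim_anti h.tau_anti (B := 0) fun t ht => h.tau_nonneg ht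
  refine ⟨l1 + l2, (h1.add h2).congr fun t => ?_⟩
  ring

/-- a bound from above on `[T, ∞)` gives one on `[0, ∞)` -/
theorem decay_of_eventually {s T : ℝ} (hT : 0 ≤ T)
    (hN : ∀ t, T ≤ t → inner ℝ (N t (w t)) (w t) ≤ - s * gg w t) :
    ∃ C, ∀ t, 0 ≤ t → gg w t ≤ C * Real.exp (-(2 * s) * t) := by
  have hc : Continuous fun t => gg w t * Real.exp (2 * s * t) :=
    h.contG.mul (by fun_prop)
  have hd : ∀ t, HasDerivAt (fun t => gg w t * Real.exp (2 * s * t))
      (2 * inner ℝ (N t (w t)) (w t) * Real.exp (2 * s * t) +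
        gg w t * (Real.exp (2 * s * t) * (2 * s))) t := by
    intro t
    have h1 : HasDerivAt (fun t : ℝ => 2 * s * t) (2 * s) t := by
      simpa using (hasDerivAt_id t).const_mul (2 * s)
    exact (h.hasDerivAt_gg t).mul h1.exp
  have hanti : AntitoneOn (fun t => gg w t * Real.exp (2 * s * t)) (Ici T) := by
    refine antitoneOn_of_deriv_nonpos (convex_Ici T) hc.continuousOn
      (fun t ht => (hd t).differentiableAt.differentiableWithinAt) fun t ht => ?_
    rw [(hd t).deriv]
    have h1 := hN t (interior_subset ht)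
    have h2 := Real.exp_pos (2 * s * t)
    nlinarith
  obtain ⟨B, hB⟩ := (isCompact_Icc (a := (0:ℝ)) (b := T)).bddAbove_image hc.continuousOn
  refine ⟨B, fun t ht => ?_⟩
  have h1 : gg w t * Real.exp (2 * s * t) ≤ B := by
    rcases le_total t T with h2 | h2
    · exact hB ⟨t, ⟨ht, h2⟩, rfl⟩
    · exact (hanti (mem_Ici.2 le_rfl) (mem_Ici.2 h2) h2).trans (hB ⟨T, ⟨hT, le_rfl⟩, rfl⟩)
  have h3 : gg w t = gg w t * Real.exp (2 * s * t) * Real.exp (-(2 * s) * t) := by
    rw [mul_assoc, ← Real.exp_add]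
    ring_nf
    simp
  rw [h3]
  exact mul_le_mul_of_nonneg_right h1 (Real.exp_pos _).le

/-- a bound from below on `[T, ∞)` gives one on `[0, ∞)` -/
theorem lower_of_eventually {b T : ℝ} (hb : 0 < b) (hN : ∀ t, T ≤ t → b ≤ gg w t) :
    ∃ b' > 0, ∀ t, 0 ≤ t → b' ≤ gg w t := by
  obtain ⟨t0, -, ht0⟩ := (isCompact_Icc (a := (0:ℝ)) (b := max T 0)).exists_isMinOn
    ⟨0, ⟨le_rfl, le_max_right _ _⟩⟩ h.contG.continuousOn
  refine ⟨min b (gg w t0), lt_min hb (h.gg_pos t0), fun t ht => ?_⟩
  rcases le_total t (max T 0) with h2 | h2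
  · exact (min_le_right _ _).trans (ht0 ⟨ht, h2⟩)
  · exact (min_le_left _ _).trans (hN t ((le_max_left _ _).trans h2))

/-- the last step -/
theorem lower_of_key {C T : ℝ} (hC0 : 0 < C) (hT0 : 0 ≤ T)
    (key : ∀ t, T ≤ t → qq N c w t / gg w t - c ≤ C * cov N c w t) :
    ∃ b > 0, ∀ t, 0 ≤ t → b ≤ gg w t := by
  -- the monotone function
  have hd : ∀ t, T ≤ t → ∃ d, 0 ≤ d ∧ HasDerivAt (fun t => Real.log (gg w t) +
      C * (aa N c w t / gg w t - tau N c t)) d t := by
    intro t ht
    obtain ⟨d, h1, h2⟩ := h.hasDerivAt_F (t := t) (hT0.trans ht)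
    refine ⟨_, ?_, ((h.hasDerivAt_gg t).log (h.gg_pos t).ne').add (h2.const_mul C)⟩
    have h3 := key t ht
    have hG := h.gg_pos t
    have e1 : 2 * inner ℝ (N t (w t)) (w t) / gg w t = - 2 * (qq N c w t / gg w t - c) := by
      rw [h.N_eq]
      field_simp
      ring
    rw [e1]
    have h4 : C * (2 * cov N c w t) ≤ C * d := by gcongr
    linarith
  have hmono : MonotoneOn (fun t => Real.log (gg w t) +
      C * (aa N c w t / gg w t - tau N c t)) (Ici T) := by
    refine monotoneOn_of_deriv_nonneg (convex_Ici T) (fun t ht => ?_) (fun t ht => ?_)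
      fun t ht => ?_
    · obtain ⟨d, -, h2⟩ := hd t ht
      exact h2.continuousAt.continuousWithinAt
    · obtain ⟨d, -, h2⟩ := hd t (interior_subset ht)
      exact h2.differentiableAt.differentiableWithinAt
    · obtain ⟨d, h1, h2⟩ := hd t (interior_subset ht)
      rw [h2.deriv]
      exact h1
  set L : ℝ := Real.log (gg w T) + C * (aa N c w T / gg w T - tau N c T) - C with hL
  refine h.lower_of_eventually (T := T) (Real.exp_pos L) fun t ht => ?_
  have h1 := hmono (mem_Ici.2 le_rfl) (mem_Ici.2 ht) ht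
  simp only at h1
  have h2 := h.F_le_one (t := t) (hT0.trans ht)
  have h3 : C * (aa N c w t / gg w t - tau N c t) ≤ C * 1 := by gcongr
  have h4 : L ≤ Real.log (gg w t) := by rw [hL]; linarith
  calc Real.exp L ≤ Real.exp (Real.log (gg w t)) := Real.exp_le_exp.2 h4
    _ = gg w t := Real.exp_log (h.gg_pos t)

/-- **the dichotomy** -/
theorem dichotomy (hc : 0 < c) :
    (∃ C s, 0 < s ∧ ∀ t, 0 ≤ t → gg w t ≤ C * Real.exp (-s * t)) ∨
    (∃ b > 0, ∀ t, 0 ≤ t → b ≤ gg w t) := by
  obtain ⟨l, hl⟩ := h.exists_r_lim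
  rcases lt_or_ge l (1 / c) with hlc | hlc
  · -- decay
    left
    obtain ⟨p, hp1, hp2⟩ := exists_between (max_lt hlc (by positivity : (0:ℝ) < 1 / c))
    have hlp : l < p := (le_max_left _ _).trans_lt hp1
    have hp0 : 0 < p := (le_max_right _ _).trans_lt hp1
    obtain ⟨T, hT⟩ := eventually_atTop.1 ((hl.eventually_lt_const hlp).and (eventually_ge_atTop 0))
    have hs : 0 < 1 / p - c := by
      rw [sub_pos, lt_div_iff₀ hp0]
      rw [lt_div_iff₀ hc] at hp2
      linarith
    have hT0 : 0 ≤ T := (hT T le_rfl).2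
    obtain ⟨C, hC⟩ := h.decay_of_eventually (s := 1 / p - c) (T := T) hT0 (by
      intro t ht
      obtain ⟨h1, h2⟩ := hT t ht
      have hG := h.gg_pos t
      have hA := h.aa_pos h2
      have h3 := h.cov_nonneg h2
      rw [cov, sub_nonneg, le_div_iff₀ (by positivity)] at h3
      rw [h.N_eq]
      have h4 : aa N c w t < p * gg w t := by rwa [div_lt_iff₀ hG] at h1
      have h6 : gg w t ≤ p * qq N c w t := by
        have hQ : 0 < qq N c w t := by
          by_contra hcon
          have : aa N c w t * qq N c w t ≤ 0 := mul_nonpos_of_nonneg_of_nonpos hA.le (not_lt.1 hcon)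
          nlinarith
        have h7 : gg w t * gg w t ≤ gg w t * (p * qq N c w t) := by nlinarith
        exact le_of_mul_le_mul_left h7 hG
      have h5 : gg w t / p ≤ qq N c w t := by
        rw [div_le_iff₀ hp0]
        linarith
      have e1 : 1 / p * gg w t = gg w t / p := by ring
      linarith)
    exact ⟨C, 2 * (1 / p - c), by linarith, hC⟩
  · -- lower bound
    right
    obtain ⟨R, hRs, hR⟩ := h.exists_R_lim
    set X : H →L[ℝ] H := (1 / c) • ContinuousLinearMap.id ℝ H - R with hX
    have hXs : Sym X := by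
      intro a b
      simp only [hX, sub_apply, smul_apply, ContinuousLinearMap.id_apply, inner_sub_left,
        inner_sub_right, real_inner_smul_left, real_inner_smul_right]
      rw [hRs]
    obtain ⟨k, hk0, hk⟩ := exists_gap hXs
    have hEs : ∀ t, 0 ≤ t → Sym (Rop N c t - R) := by
      intro t ht a b
      simp only [sub_apply, inner_sub_left, inner_sub_right]
      rw [h.symmR ht, hRs]
    have hEn : ∀ t, 0 ≤ t → Nng (Rop N c t - R) := by
      intro t ht a
      rw [sub_apply, inner_sub_left, sub_nonneg]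
      refine le_of_tendsto (hR a a) ?_
      filter_upwards [eventually_ge_atTop t] with s hs
      exact h.antitoneOn_R a ht (ht.trans hs) hs
    have htr : Tendsto (fun t => tra (Rop N c t - R)) atTop (𝓝 0) := by
      have h1 : Tendsto (fun t => ∑ i, (inner ℝ (Rop N c t (stdOrthonormalBasis ℝ H i))
          (stdOrthonormalBasis ℝ H i) - inner ℝ (R (stdOrthonormalBasis ℝ H i))
          (stdOrthonormalBasis ℝ H i))) atTop (𝓝 (∑ i, (inner ℝ (R (stdOrthonormalBasis ℝ H i))
          (stdOrthonormalBasis ℝ H i) - inner ℝ (R (stdOrthonormalBasis ℝ H i))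
          (stdOrthonormalBasis ℝ H i)))) :=
        tendsto_finsetSum _ fun i _ => (hR _ _).sub_const _
      simp only [sub_self, Finset.sum_const_zero] at h1
      refine h1.congr fun t => ?_
      simp only [tra, sub_apply, inner_sub_left]
    set m : ℝ := min (k / 4) (1 / (2 * c)) with hm
    have hm0 : 0 < m := lt_min (by positivity) (by positivity)
    have hδ : Tendsto (fun t => 1 / c - aa N c w t / gg w t) atTop (𝓝 (1 / c - l)) :=
      hl.const_sub _
    obtain ⟨T, hT⟩ := eventually_atTop.1 ((hδ.eventually_lt_const (by linarith :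
      1 / c - l < m)).and ((htr.eventually_lt_const (half_pos hk0)).and (eventually_ge_atTop 0)))
    set C : ℝ := 2 * c * (1 + 4 * c / k) with hC
    have hT0 : 0 ≤ T := (hT T le_rfl).2.2
    -- the main inequality
    have key : ∀ t, T ≤ t → qq N c w t / gg w t - c ≤ C * cov N c w t := by
      intro t ht
      obtain ⟨h1, h2, h3⟩ := hT t ht
      have hgap := gap_perturb hk (hEs t h3) (hEn t h3) h2.le (w t)
      have hXE : X - (Rop N c t - R) = (1 / c) • ContinuousLinearMap.id ℝ H - Rop N c t := by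
        rw [hX]; abel
      rw [hXE] at hgap
      simp only [sub_apply, smul_apply, ContinuousLinearMap.id_apply, inner_sub_left,
        inner_sub_right, real_inner_smul_left, real_inner_smul_right] at hgap
      have e4 : inner ℝ (w t) (Rop N c t (w t)) = inner ℝ (Rop N c t (w t)) (w t) :=
        real_inner_comm _ _
      rw [e4] at hgap
      have hgap' : k * (1 / c * gg w t - aa N c w t) ≤ 2 * ((1 / c) * ((1 / c) * gg w t -
          aa N c w t) - ((1 / c) * aa N c w t - bb N c w t)) := by
        refine hgap.trans (le_of_eq ?_)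
        simp only [gg, aa, bb]
        ring
      exact scalar_key (h.aa_pos h3) (h.gg_pos t) hc hk0 (h.cov_ge_aux h3) (h.cov_nonneg h3) hgap'
        (h1.trans_le (min_le_left _ _)) (h1.trans_le (min_le_right _ _))
    exact h.lower_of_key (by positivity) hT0 key

end Sys

end Vale.Agent.P253.H202
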