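import Vale.Agent.P253.H22.Min

/-!
P253: length of an orbit of the gradient of a Killing potential, and the growth of the potential.
-/

open scoped Manifold ContDiff Topology Bundle
open Set Metric Complex Filter Bundle IsManifold Manifold Module Vale.Agent.P253.Mfd
  Vale.Agent.P253.H577 Vale.Agent.P253.H22

set_option maxSynthPendingDepth 3
set_option linter.unusedSectionVars false

noncomputable section

namespace Vale.Agent.P253.H202

variable {E : Type*} [NormedAddCommGroup E] [NormedSpace ℂ E] [FiniteDimensional ℂ E]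
  {M : Type*} [MetricSpace M] [ChartedSpace E M]
  [IsManifold 𝓘(ℂ, E) 1 M] [IsManifold 𝓘(ℝ, E) ∞ M]
  [RiemannianBundle (fun x : M => TangentSpace 𝓘(ℝ, E) x)]
  [IsContMDiffRiemannianBundle 𝓘(ℝ, E) ∞ E (fun x : M => TangentSpace 𝓘(ℝ, E) x)]
  {ρ : ℝ → M → M} {h : M → ℝ} {γ : ℝ → M}

/-- the potential grows along the orbits of its gradient -/
theorem hasDerivAt_pot (hρ : IsHolIsomFlow E ρ) (hgrad : IsGradOf (E := E) ρ h)
    (hγ : IsMIntegralCurve (I := 𝓘(ℝ, E)) γ (W ρ)) (t : ℝ) :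
    HasDerivAt (fun s => h (γ s)) (nW (E := E) ρ (γ t)) t := by
  have he : chartAt E (γ t) ∈ maximalAtlas 𝓘(ℂ, E) 1 M := chart_mem_maximalAtlas (γ t)
  set e := chartAt E (γ t) with hedef
  have hx : γ t ∈ e.source := mem_chart_source E (γ t)
  have hy := IntegralCurve.hasDerivAt hρ he (hγ.isMIntegralCurveOn univ) univ_mem hx
  have h1 := hgrad e he (e (γ t)) (e.map_source hx)
  have h2 := HasFDerivAt.comp_hasDerivAt (f := e ∘ γ) t h1 hy
  rw [← nW_eq hρ he hx] at h2
  refine h2.congr_of_eventuallyEq ?_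
  filter_upwards [hγ.continuous.continuousAt.eventually (e.open_source.mem_nhds hx)] with s hs
  simp only [Function.comp_apply]
  rw [e.left_inv hs]

theorem IsGradOf.rev (hgrad : IsGradOf (E := E) ρ h) :
    IsGradOf (E := E) (fun t => ρ (-t)) (fun x => -h x) := by
  intro e he z hz
  rw [vF_rev, map_neg]
  exact (hgrad e he z hz).neg

theorem continuous_nW (hρ : IsHolIsomFlow E ρ) (hγ : IsMIntegralCurve (I := 𝓘(ℝ, E)) γ (W ρ)) :
    Continuous fun t => nW (E := E) ρ (γ t) :=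
  continuous_iff_continuousAt.2 fun t => (hasDerivAt_nW hρ
    (hγ.isMIntegralCurveOn (Ioo (t - 1) (t + 1))) ⟨by linarith, by linarith⟩).continuousAt

theorem continuous_nWM (hρ : IsHolIsomFlow E ρ) : Continuous (nW (E := E) ρ) := by
  refine continuous_iff_continuousAt.2 fun x => ?_
  have he : chartAt E x ∈ maximalAtlas 𝓘(ℂ, E) 1 M := chart_mem_maximalAtlas x
  set e := chartAt E x with hedef
  have hx : x ∈ e.source := mem_chart_source E x
  have her := mem_maximalAtlas_real he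
  have htgt : e.target ∈ 𝓝 (e x) := e.open_target.mem_nhds (e.map_source hx)
  have hvc : ContinuousAt (vF ρ e) (e x) := (contDiffOn_vF hρ he).continuousOn.continuousAt htgt
  have hGc : ContinuousAt (chartG e) (e x) := (contDiffOn_chartG her).continuousOn.continuousAt htgt
  have h1 : ContinuousAt (fun z => chartG e z (vF ρ e z) (vF ρ e z)) (e x) :=
    (hGc.clm_apply hvc).clm_apply hvc
  have h2 : ContinuousAt (fun y => chartG e (e y) (vF ρ e (e y)) (vF ρ e (e y))) x :=
    ContinuousAt.comp (f := e) (g := fun z => chartG e z (vF ρ e z) (vF ρ e z)) h1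
      (e.continuousAt hx)
  refine h2.congr ?_
  filter_upwards [e.open_source.mem_nhds hx] with y hy
  exact (nW_eq hρ he hy).symm

theorem fixed_of_nW (hρ : IsHolIsomFlow E ρ) {p : M} (h0 : nW (E := E) ρ p = 0) (t : ℝ) :
    ρ t p = p := by
  have he : chartAt E p ∈ maximalAtlas 𝓘(ℂ, E) 1 M := chart_mem_maximalAtlas p
  have hx : p ∈ (chartAt E p).source := mem_chart_source E p
  rw [nW_eq hρ he hx] at h0
  refine fixed_of_zero hρ he hx ?_ t
  by_contra hne
  have h1 := chartG_pos (mem_maximalAtlas_real he) ((chartAt E p).map_source hx) _ hne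
  rw [h0] at h1
  exact lt_irrefl _ h1

variable [IsRiemannianManifold 𝓘(ℝ, E) M]

/-- the length of an orbit is bounded by a primitive of a bound for its speed -/
theorem dist_le_primitive (hρ : IsHolIsomFlow E ρ) (hγ : IsMIntegralCurve (I := 𝓘(ℝ, E)) γ (W ρ))
    {L l : ℝ → ℝ} {t₀ t₁ : ℝ} (h01 : t₀ ≤ t₁) (hL : ∀ t, HasDerivAt L (l t) t)
    (hl : Continuous l) (hsp : ∀ t ∈ Icc t₀ t₁, √(nW (E := E) ρ (γ t)) ≤ l t) :
    dist (γ t₀) (γ t₁) ≤ L t₁ - L t₀ := by
  have hγ' : IsMIntegralCurveOn (I := 𝓘(ℝ, E)) γ (W ρ) (Ioo (t₀ - 1) (t₁ + 1)) :=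
    hγ.isMIntegralCurveOn _
  have hsub : Icc t₀ t₁ ⊆ Ioo (t₀ - 1) (t₁ + 1) := fun s hs =>
    ⟨by linarith [hs.1], by linarith [hs.2]⟩
  refine interval_propagate (P := fun t => dist (γ t₀) (γ t) ≤ L t - L t₀) h01
    (fun t ht => ?_) (by simp)
  obtain ⟨ε, hε, hloc⟩ := curve_local hγ' (hsub ht)
  refine ⟨ε, hε, fun s hs s' hs' hst hs't hss' hPs => ?_⟩
  have he : chartAt E (γ t) ∈ maximalAtlas 𝓘(ℂ, E) 1 M := chart_mem_maximalAtlas (γ t)
  set e := chartAt E (γ t) with hedef
  have her := mem_maximalAtlas_real he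
  have hint : ∀ r ∈ Icc s s', |r - t| < ε := by
    intro r hr
    rw [abs_lt] at hst hs't ⊢
    exact ⟨by linarith only [hst, hr, hr.1], by linarith only [hs't, hr, hr.2]⟩
  have hder : ∀ r ∈ Icc s s', HasDerivWithinAt (e ∘ γ) (vF ρ e (e (γ r))) (Icc s s') r :=
    fun r hr => ((IntegralCurve.hasDerivAt hρ he hγ'
      (Ioo_mem_nhds (hloc r (hint r hr)).1.1 (hloc r (hint r hr)).1.2)
      (hloc r (hint r hr)).2).hasDerivWithinAt)
  have htgt : ∀ r ∈ Icc s s', e (γ r) ∈ e.target := fun r hr =>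
    e.map_source (hloc r (hint r hr)).2
  have hcc : ContinuousOn (e ∘ γ) (Icc s s') := fun r hr => (hder r hr).continuousWithinAt
  have hcv : ContinuousOn (fun r => vF ρ e (e (γ r))) (Icc s s') :=
    ((contDiffOn_vF hρ he).continuousOn).comp hcc htgt
  have h1 := dist_le_chart her hss' hder hcv htgt
  have h2 : ∫ r in s..s', √(chartG e ((e ∘ γ) r) (vF ρ e (e (γ r))) (vF ρ e (e (γ r))))
      ≤ ∫ r in s..s', l r := by
    apply intervalIntegral.integral_mono_on hss'
    · apply ContinuousOn.intervalIntegrable_of_Icc hss'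
      have hG : ContinuousOn (fun r => chartG e ((e ∘ γ) r)) (Icc s s') :=
        (contDiffOn_chartG her).continuousOn.comp hcc htgt
      exact ((hG.clm_apply hcv).clm_apply hcv).sqrt
    · exact hl.intervalIntegrable _ _
    · intro r hr
      have h3 : chartG e ((e ∘ γ) r) (vF ρ e (e (γ r))) (vF ρ e (e (γ r)))
          = nW (E := E) ρ (γ r) := (nW_eq hρ he (hloc r (hint r hr)).2).symm
      rw [h3]
      exact hsp r ⟨hs.1.trans hr.1, hr.2.trans hs'.2⟩
  rw [intervalIntegral.integral_eq_sub_of_hasDerivAt (fun r _ => hL r)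
    (hl.intervalIntegrable _ _)] at h2
  have e1 : e.symm ((e ∘ γ) s) = γ s := e.left_inv (hloc s hst).2
  have e2 : e.symm ((e ∘ γ) s') = γ s' := e.left_inv (hloc s' hs't).2
  rw [e1, e2] at h1
  have h3 := dist_triangle (γ t₀) (γ s) (γ s')
  linarith only [hPs, h1, h2, h3]

/-- if the speed is bounded below, the potential controls the distance -/
theorem drop (hρ : IsHolIsomFlow E ρ) (hgrad : IsGradOf (E := E) ρ h)
    (hγ : IsMIntegralCurve (I := 𝓘(ℝ, E)) γ (W ρ)) {b : ℝ} (hb : 0 < b) {s t : ℝ} (hst : s ≤ t)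
    (hlow : ∀ r ∈ Icc s t, b ≤ nW (E := E) ρ (γ r)) :
    √b * dist (γ s) (γ t) ≤ h (γ t) - h (γ s) := by
  have hb' : 0 < √b := Real.sqrt_pos.2 hb
  have h1 := dist_le_primitive hρ hγ (L := fun t => h (γ t) / √b)
    (l := fun t => nW (E := E) ρ (γ t) / √b) hst
    (fun t => (hasDerivAt_pot hρ hgrad hγ t).div_const _)
    ((continuous_nW hρ hγ).div_const _) (fun r hr => by
      rw [le_div_iff₀ hb']
      have h2 := hlow r hr
      have h3 : √b ≤ √(nW (E := E) ρ (γ r)) := Real.sqrt_le_sqrt h2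
      calc √(nW (E := E) ρ (γ r)) * √b ≤ √(nW (E := E) ρ (γ r)) * √(nW (E := E) ρ (γ r)) := by
            gcongr
        _ = nW (E := E) ρ (γ r) := Real.mul_self_sqrt (hb.le.trans h2))
  have h2 := mul_le_mul_of_nonneg_left h1 hb'.le
  refine h2.trans (le_of_eq ?_)
  field_simp

/-- a lower bound for the speed gives linear growth in time -/
theorem drop_time (hρ : IsHolIsomFlow E ρ) (hgrad : IsGradOf (E := E) ρ h)
    (hγ : IsMIntegralCurve (I := 𝓘(ℝ, E)) γ (W ρ)) {b : ℝ}
    (hlow : ∀ r, 0 ≤ r → b ≤ nW (E := E) ρ (γ r)) {t : ℝ} (ht : 0 ≤ t) :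
    b * t ≤ h (γ t) - h (γ 0) := by
  have hd : ∀ r, HasDerivAt (fun r => h (γ r) - b * r) (nW (E := E) ρ (γ r) - b) r := by
    intro r
    have h1 := (hasDerivAt_id r).const_mul b
    simp only [id, mul_one] at h1
    exact (hasDerivAt_pot hρ hgrad hγ r).sub h1
  have hmono : MonotoneOn (fun r => h (γ r) - b * r) (Ici 0) := by
    refine monotoneOn_of_deriv_nonneg (convex_Ici 0)
      (fun r _ => (hd r).continuousAt.continuousWithinAt)
      (fun r _ => (hd r).differentiableAt.differentiableWithinAt) fun r hr => ?_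
    rw [(hd r).deriv]
    linarith [hlow r (interior_subset hr)]
  have h1 := hmono (mem_Ici.2 le_rfl) (mem_Ici.2 ht) ht
  simp only [mul_zero, sub_zero] at h1
  linarith

/-- an orbit with exponentially decaying speed converges to a fixed point -/
theorem exists_lim_of_decay [CompleteSpace M] (hρ : IsHolIsomFlow E ρ)
    (hγ : IsMIntegralCurve (I := 𝓘(ℝ, E)) γ (W ρ)) {C s : ℝ} (hs : 0 < s)
    (hdec : ∀ t, 0 ≤ t → nW (E := E) ρ (γ t) ≤ C * Real.exp (-s * t)) :
    ∃ p, (∀ t, ρ t p = p) ∧ Tendsto γ atTop (𝓝 p) ∧ Bornology.IsBounded (γ '' Ici 0) ∧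
      ∃ C', ∀ t, 0 ≤ t → dist (γ t) p ≤ C' * Real.exp (-(s / 2) * t) := by
  have hC0 : 0 ≤ C := by
    have h1 := hdec 0 le_rfl
    simp only [mul_zero, Real.exp_zero, mul_one] at h1
    exact (nW_nonneg hρ _).trans h1
  set K : ℝ := 2 * √C / s with hK
  have hK0 : 0 ≤ K := by positivity
  have hdist : ∀ t₀ t₁, 0 ≤ t₀ → t₀ ≤ t₁ → dist (γ t₀) (γ t₁) ≤ K * Real.exp (-(s / 2) * t₀) := by
    intro t₀ t₁ h0 h01
    have hL : ∀ t : ℝ, HasDerivAt (fun t => -K * Real.exp (-(s / 2) * t))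
        (√C * Real.exp (-(s / 2) * t)) t := by
      intro t
      have h1 : HasDerivAt (fun t : ℝ => -(s / 2) * t) (-(s / 2)) t := by
        simpa using (hasDerivAt_id t).const_mul (-(s / 2))
      refine (h1.exp.const_mul (-K)).congr_deriv ?_
      rw [hK]
      field_simp
    have h1 := dist_le_primitive hρ hγ (L := fun t => -K * Real.exp (-(s / 2) * t))
      (l := fun t => √C * Real.exp (-(s / 2) * t)) h01 hL (by fun_prop) (fun r hr => by
        have hr0 : 0 ≤ r := h0.trans hr.1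
        refine Real.sqrt_le_iff.2 ⟨by positivity, (hdec r hr0).trans (le_of_eq ?_)⟩
        rw [mul_pow, Real.sq_sqrt hC0, ← Real.exp_nat_mul]
        congr 2
        push_cast
        ring)
    have h2 := Real.exp_pos (-(s / 2) * t₁)
    nlinarith
  have htend : Tendsto (fun t : ℝ => K * Real.exp (-(s / 2) * t)) atTop (𝓝 0) := by
    have h1 : Tendsto (fun t : ℝ => (s / 2) * t) atTop atTop :=
      tendsto_id.const_mul_atTop (by linarith)
    have h2 := (Real.tendsto_exp_atBot.comp (tendsto_neg_atTop_atBot.comp h1)).const_mul K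
    rw [mul_zero] at h2
    refine h2.congr fun t => ?_
    simp only [Function.comp_apply, neg_mul]
  have hcau : CauchySeq γ := by
    rw [Metric.cauchySeq_iff']
    intro ε hε
    obtain ⟨N, hN1, hN0⟩ := ((htend.eventually_lt_const hε).and (eventually_ge_atTop 0)).exists
    refine ⟨N, fun n hn => ?_⟩
    rw [dist_comm]
    exact (hdist N n hN0 hn).trans_lt hN1
  obtain ⟨p, hp⟩ := cauchySeq_tendsto_of_complete hcau
  have hlim : ∀ t, 0 ≤ t → dist (γ t) p ≤ K * Real.exp (-(s / 2) * t) := by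
    intro t ht
    refine le_of_tendsto (tendsto_const_nhds.dist hp) ?_
    filter_upwards [eventually_ge_atTop t] with r hr
    exact hdist t r ht hr
  have hbd : Bornology.IsBounded (γ '' Ici 0) := by
    refine Metric.isBounded_closedBall.subset (t := closedBall p K) ?_
    rintro _ ⟨t, ht, rfl⟩
    rw [mem_closedBall]
    refine (hlim t ht).trans ?_
    have h1 : Real.exp (-(s / 2) * t) ≤ 1 := by
      rw [Real.exp_le_one_iff]
      have h2 : 0 ≤ s / 2 * t := mul_nonneg (by linarith) ht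
      linarith
    calc K * Real.exp (-(s / 2) * t) ≤ K * 1 := by gcongr
      _ = K := mul_one K
  refine ⟨p, ?_, hp, hbd, K, hlim⟩
  have h1 : Tendsto (fun t => nW (E := E) ρ (γ t)) atTop (𝓝 (nW (E := E) ρ p)) :=
    ((continuous_nWM hρ).tendsto p).comp hp
  have h2 : Tendsto (fun t => nW (E := E) ρ (γ t)) atTop (𝓝 0) := by
    have h3 : Tendsto (fun t : ℝ => C * Real.exp (-s * t)) atTop (𝓝 0) := by
      have h1 : Tendsto (fun t : ℝ => s * t) atTop atTop := tendsto_id.const_mul_atTop hs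
      have h2 := (Real.tendsto_exp_atBot.comp (tendsto_neg_atTop_atBot.comp h1)).const_mul C
      rw [mul_zero] at h2
      refine h2.congr fun t => ?_
      simp only [Function.comp_apply, neg_mul]
    refine squeeze_zero' (Eventually.of_forall fun t => nW_nonneg hρ _) ?_ h3
    filter_upwards [eventually_ge_atTop 0] with t ht using hdec t ht
  exact fixed_of_nW hρ (tendsto_nhds_unique h1 h2)

/-- the curve run backwards -/
theorem rev_curve (hγ : IsMIntegralCurve (I := 𝓘(ℝ, E)) γ (W (E := E) ρ)) :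
    IsMIntegralCurve (I := 𝓘(ℝ, E)) (fun t => γ (-t)) (W (E := E) (fun t => ρ (-t))) := by
  have h2 := hγ.comp_mul (-1)
  have h3 : ((-1 : ℝ) • W (E := E) ρ : (x : M) → TangentSpace 𝓘(ℝ, E) x)
      = W (E := E) (fun t => ρ (-t)) := by
    funext y
    change (-1 : ℝ) • WE (E := E) ρ y = WE (E := E) (fun t => ρ (-t)) y
    rw [WE_rev]
    simp
  rw [h3] at h2
  have h4 : (γ ∘ fun x => x * -1) = fun t => γ (-t) := by
    funext t
    simp
  rwa [h4] at h2

/-- an orbit of `-grad h` converges to a critical point, if `h` has a sublinear lower bound -/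
theorem exists_lim_back_of (hK : IsKahler E M) (hnn : ∀ x : M, NonnegBisectionalAt E x)
    (hρ : IsHolIsomFlow E ρ) [CompleteSpace M]
    (hdich : ∀ {γ : ℝ → M}, IsMIntegralCurve (I := 𝓘(ℝ, E)) γ (W (E := E) (fun t => ρ (-t))) →
      0 < nW (E := E) (fun t => ρ (-t)) (γ 0) →
      (∃ C s, 0 < s ∧ ∀ t, 0 ≤ t →
        nW (E := E) (fun t => ρ (-t)) (γ t) ≤ C * Real.exp (-s * t)) ∨
      (∃ b > 0, ∀ t, 0 ≤ t → b ≤ nW (E := E) (fun t => ρ (-t)) (γ t)))
    (hgrad : IsGradOf (E := E) ρ h) {x₀ : M}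
    (hsub : ∀ ε > 0, ∃ C, ∀ x, -(ε * dist x₀ x) - C ≤ h x)
    (hγ : IsMIntegralCurve (I := 𝓘(ℝ, E)) γ (W ρ)) :
    ∃ p, (∀ t, ρ t p = p) ∧ Tendsto γ atBot (𝓝 p) ∧ Bornology.IsBounded (γ '' Iic 0) ∧
      ∃ C s, 0 < s ∧ ∀ t, t ≤ 0 → dist (γ t) p ≤ C * Real.exp (s * t) := by
  have hσ : IsHolIsomFlow E (fun t => ρ (-t)) := hρ.rev
  have hγ' := rev_curve (E := E) hγ
  have hg' := IsGradOf.rev (E := E) hgrad
  have hcase : (∃ C s, 0 < s ∧ ∀ t, 0 ≤ t →
        nW (E := E) (fun t => ρ (-t)) (γ (-t)) ≤ C * Real.exp (-s * t)) ∨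
      (∃ b > 0, ∀ t, 0 ≤ t → b ≤ nW (E := E) (fun t => ρ (-t)) (γ (-t))) := by
    rcases (nW_nonneg (E := E) hσ (γ (-0))).eq_or_lt with h0 | h0
    · left
      refine ⟨0, 1, one_pos, fun t ht => ?_⟩
      obtain ⟨Λ, -, hΛ⟩ := exists_TopLE (E := E) hσ hK (γ (-0))
      have h1 := speed_bound hK hnn hσ (hγ'.isMIntegralCurveOn (Ioo (-1) (t + 1))) ht
        ⟨by norm_num, by linarith⟩ ⟨by linarith, by linarith⟩ hΛ
      rw [← h0, mul_zero] at h1
      rw [zero_mul]
      exact h1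
    · exact hdich hγ' h0
  rcases hcase with ⟨C, s, hs, hdec⟩ | ⟨b, hb, hlow⟩
  · obtain ⟨p, hfix, hp, hbd, C', hC'⟩ := exists_lim_of_decay hσ hγ' hs hdec
    refine ⟨p, fun t => ?_, ?_, ?_, C', s / 2, by linarith, fun t ht => ?_⟩
    · have h1 := hfix (-t)
      rwa [neg_neg] at h1
    · have h1 := hp.comp tendsto_neg_atBot_atTop
      refine h1.congr fun t => ?_
      simp
    · refine hbd.subset ?_
      rintro _ ⟨t, ht, rfl⟩
      exact ⟨-t, by simpa using ht, by simp⟩
    · have h1 := hC' (-t) (by linarith)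
      rw [neg_neg] at h1
      refine h1.trans (le_of_eq ?_)
      congr 2
      ring
  · exfalso
    have hb' : 0 < √b := Real.sqrt_pos.2 hb
    obtain ⟨C, hC⟩ := hsub (√b / 2) (by linarith)
    obtain ⟨A, hA⟩ : ∃ A : ℝ, A = h (γ (-0)) + √b / 2 * dist x₀ (γ (-0)) + C := ⟨_, rfl⟩
    have key : ∀ t : ℝ, 0 ≤ t → b * t ≤ 2 * A := by
      intro t ht
      have h1 : √b * dist (γ (-0)) (γ (-t)) ≤ h (γ (-0)) - h (γ (-t)) := by
        have h6 := drop hσ hg' hγ' hb ht (fun r hr => hlow r hr.1)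
        linarith only [h6]
      have h2 : b * t ≤ h (γ (-0)) - h (γ (-t)) := by
        have h6 := drop_time hσ hg' hγ' hlow ht
        linarith only [h6]
      have h3 := hC (γ (-t))
      have h4 := dist_triangle x₀ (γ (-0)) (γ (-t))
      have h5 : √b / 2 * dist x₀ (γ (-t)) ≤ √b / 2 * dist x₀ (γ (-0)) +
          (√b * dist (γ (-0)) (γ (-t))) / 2 := by
        have h6 := mul_le_mul_of_nonneg_left h4 (by linarith : 0 ≤ √b / 2)
        linarith only [h6]
      generalize dist (γ (-0)) (γ (-t)) = D at h1 h5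
      generalize dist x₀ (γ (-t)) = D1 at h3 h5
      generalize dist x₀ (γ (-0)) = D2 at hA h5
      generalize h (γ (-t)) = H1 at h1 h2 h3
      generalize h (γ (-0)) = H2 at h1 h2 hA
      rw [hA]
      linarith only [h1, h2, h3, h5]
    have h1 := key ((2 * |A| + 1) / b) (by positivity)
    rw [mul_div_cancel₀ _ hb.ne'] at h1
    linarith [le_abs_self A]

end Vale.Agent.P253.H202
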