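import Vale.Agent.P253.H202.Drop
import Vale.Agent.P253.H202.Speed

/-!
P253: every orbit of `-grad h` converges to a critical point, `h` a Killing potential with a
sublinear lower bound.
-/

open scoped Manifold ContDiff Topology Bundle
open Set Metric Complex Filter Bundle IsManifold Manifold Module Vale.Agent.P253.Mfd
  Vale.Agent.P253.H577 Vale.Agent.P253.H22

set_option maxSynthPendingDepth 3
set_option linter.unusedSectionVars false

noncomputable section

namespace Vale.Agent.P253.H202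

variable {E : Type*} [NormedAddCommGroup E] [NormedSpace ℂ E] [FiniteDimensional ℂ E]
  {M : Type*} [MetricSpace M] [ChartedSpace E M]
  [IsManifold 𝓘(ℂ, E) 1 M] [IsManifold 𝓘(ℝ, E) ∞ M]
  [RiemannianBundle (fun x : M => TangentSpace 𝓘(ℝ, E) x)]
  [IsContMDiffRiemannianBundle 𝓘(ℝ, E) ∞ E (fun x : M => TangentSpace 𝓘(ℝ, E) x)]
  [IsRiemannianManifold 𝓘(ℝ, E) M]
  {ρ : ℝ → M → M} {h : M → ℝ} {γ : ℝ → M}

/-- **every orbit of `-grad h` converges** to a critical point, exponentially fast -/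
theorem exists_lim_back (hK : IsKahler E M) (hnn : ∀ x : M, NonnegBisectionalAt E x)
    (hρ : IsHolIsomFlow E ρ) [CompleteSpace M] (hgrad : IsGradOf (E := E) ρ h) {x₀ : M}
    (hsub : ∀ ε > 0, ∃ C, ∀ x, -(ε * dist x₀ x) - C ≤ h x)
    (hγ : IsMIntegralCurve (I := 𝓘(ℝ, E)) γ (W ρ)) :
    ∃ p, (∀ t, ρ t p = p) ∧ Tendsto γ atBot (𝓝 p) ∧ Bornology.IsBounded (γ '' Iic 0) ∧
      ∃ C s, 0 < s ∧ ∀ t, t ≤ 0 → dist (γ t) p ≤ C * Real.exp (s * t) :=
  exists_lim_back_of hK hnn hρ (fun hγ h0 => speed_dichotomy hK hnn hρ.rev hγ h0) hgrad hsub hγ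

end Vale.Agent.P253.H202
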