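import Vale.Agent.P253.H202.Lim
import Vale.Agent.P253.H202.Argmin
import Vale.Agent.P253.H348.LemZ

/-!
P253: a Killing potential of sublinear growth is constant (positive bisectional curvature,
noncompact manifold).
-/

open scoped Manifold ContDiff Topology Bundle
open Set Metric Complex Filter Bundle IsManifold Manifold Module Vale.Agent.P253.Mfd
  Vale.Agent.P253.H577 Vale.Agent.P253.H22

set_option maxSynthPendingDepth 3
set_option linter.unusedSectionVars false

noncomputable section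

namespace Vale.Agent.P253.H202

variable {E : Type*} [NormedAddCommGroup E] [NormedSpace ℂ E] [FiniteDimensional ℂ E]
  {M : Type*} [MetricSpace M] [ChartedSpace E M]
  [IsManifold 𝓘(ℂ, E) 1 M] [IsManifold 𝓘(ℝ, E) ∞ M]
  [RiemannianBundle (fun x : M => TangentSpace 𝓘(ℝ, E) x)]
  [IsContMDiffRiemannianBundle 𝓘(ℝ, E) ∞ E (fun x : M => TangentSpace 𝓘(ℝ, E) x)]
  [IsRiemannianManifold 𝓘(ℝ, E) M]
  {ρ : ℝ → M → M} {h : M → ℝ}

/-- if the gradient field vanishes, the potential is constant -/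
theorem const_of_fixed [ConnectedSpace M]
    (hgrad : IsGradOf (E := E) ρ h) (hfix : ∀ t x, ρ t x = x) : ∃ c, ∀ x, h x = c := by
  have hv : ∀ (e : OpenPartialHomeomorph M E) (z : E), z ∈ e.target →
      vF (E := E) ρ e z = 0 := by
    intro e z hz
    have h1 : (fun t : ℝ => e (ρ t (e.symm z))) = fun _ => z := by
      funext t
      rw [hfix, e.right_inv hz]
    rw [vF, xF, h1, deriv_const, smul_zero, neg_zero]
  have hloc : ∀ x₀, ∀ᶠ x in 𝓝 x₀, h x = h x₀ := by
    intro x₀
    have he : chartAt E x₀ ∈ maximalAtlas 𝓘(ℂ, E) 1 M := chart_mem_maximalAtlas x₀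
    set e := chartAt E x₀ with hedef
    have hx : x₀ ∈ e.source := mem_chart_source E x₀
    obtain ⟨r, hr, hball⟩ := Metric.isOpen_iff.1 e.open_target (e x₀) (e.map_source hx)
    have h1 : ∀ z ∈ ball (e x₀) r, HasFDerivWithinAt (fun y : E => h (e.symm y)) (0 : E →L[ℝ] ℝ)
        (ball (e x₀) r) z := by
      intro z hz
      have h2 := hgrad e he z (hball hz)
      rw [hv e z (hball hz), map_zero] at h2
      exact h2.hasFDerivWithinAt
    have h2 : ∀ z ∈ ball (e x₀) r, h (e.symm z) = h (e.symm (e x₀)) := by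
      intro z hz
      have h3 := (convex_ball (e x₀) r).norm_image_sub_le_of_norm_hasFDerivWithin_le (C := 0)
        h1 (fun z _ => by simp) (mem_ball_self hr) hz
      rw [zero_mul] at h3
      exact sub_eq_zero.1 (norm_le_zero_iff.1 h3)
    filter_upwards [(e.continuousAt hx).eventually (ball_mem_nhds _ hr),
      e.open_source.mem_nhds hx] with x hx1 hx2
    have h3 := h2 _ hx1
    rwa [e.left_inv hx2, e.left_inv hx] at h3
  obtain ⟨x₁⟩ : Nonempty M := inferInstance
  have h1 : IsLocallyConstant h := (IsLocallyConstant.iff_eventually_eq _).2 hloc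
  exact ⟨h x₁, fun x => h1.apply_eq_of_preconnectedSpace x x₁⟩

/-- **Killing potentials of sublinear growth are constant** -/
theorem const_of_sublinear [ConnectedSpace M] [NoncompactSpace M] [CompleteSpace M]
    (hK : IsKahler E M) (hnn : ∀ x : M, NonnegBisectionalAt E x)
    (hpos : ∀ x : M, PosBisectionalAt E x) (hρ : IsHolIsomFlow E ρ)
    (hgrad : IsGradOf (E := E) ρ h) {x₀ : M}
    (hsub : ∀ ε > 0, ∃ C, ∀ x, |h x| ≤ ε * dist x₀ x + C) : ∃ c, ∀ x, h x = c := by
  obtain ⟨Φ, hΦ0, hΦadd, hΦ, -⟩ := exists_flow hK hnn hρ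
  refine const_of_fixed hgrad fun t x => ?_
  have hs1 : ∀ ε > 0, ∃ C, ∀ x, -(ε * dist x₀ x) - C ≤ h x := by
    intro ε hε
    obtain ⟨C, hC⟩ := hsub ε hε
    exact ⟨C, fun x => by linarith [(abs_le.1 (hC x)).1]⟩
  have hs2 : ∀ ε > 0, ∃ C, ∀ x, -(ε * dist x₀ x) - C ≤ -h x := by
    intro ε hε
    obtain ⟨C, hC⟩ := hsub ε hε
    exact ⟨C, fun x => by linarith [(abs_le.1 (hC x)).2]⟩
  obtain ⟨p, hp, -, hb1, -⟩ := exists_lim_back hK hnn hρ hgrad hs1 (hΦ x)
  obtain ⟨q, hq, -, hb2, -⟩ := exists_lim_back hK hnn hρ.rev (IsGradOf.rev hgrad) hs2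
    (rev_curve (hΦ x))
  have hb : Bornology.IsBounded (range fun t => Φ t x) := by
    refine (hb1.union hb2).subset ?_
    rintro _ ⟨t, rfl⟩
    rcases le_total t 0 with ht | ht
    · exact Or.inl ⟨t, ht, rfl⟩
    · exact Or.inr ⟨-t, by simpa using ht, by simp⟩
  by_contra hne
  have hx : vF ρ (chartAt E (Φ 0 x)) (chartAt E (Φ 0 x) (Φ 0 x)) ≠ 0 := by
    intro h0
    have h1 := fixed_of_zero hρ (chart_mem_maximalAtlas (Φ 0 x)) (mem_chart_source E _) h0 t
    rw [hΦ0] at h1
    exact hne h1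
  exact Vale.Agent.P253.H348.no_bounded_orbit hK hnn hpos hρ hp (hΦ x) hx hb

end Vale.Agent.P253.H202
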