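import Vale.Agent.P253.H502.Nonexp
import Vale.Agent.P253.H595.Len
import Vale.Agent.P253.H202.Bil
import Vale.Agent.P253.H202.Dich4

/-!
P253: the metric pulled back by the flow of `-JX` and its Lie derivative, along an orbit.
-/

open scoped Manifold ContDiff Topology Bundle ENNReal
open Set Metric Complex Filter Bundle IsManifold Manifold Vale.Agent.P253.Mfd
  Vale.Agent.P253.H502

set_option maxSynthPendingDepth 3
set_option linter.unusedSectionVars false

noncomputable section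

namespace Vale.Agent.P253.H202

variable {E : Type*} [NormedAddCommGroup E] [NormedSpace ℂ E] [FiniteDimensional ℂ E]
  {M : Type*} [MetricSpace M] [ChartedSpace E M]
  [IsManifold 𝓘(ℂ, E) 1 M] [IsManifold 𝓘(ℝ, E) ∞ M]
  [RiemannianBundle (fun x : M => TangentSpace 𝓘(ℝ, E) x)]
  [IsContMDiffRiemannianBundle 𝓘(ℝ, E) ∞ E (fun x : M => TangentSpace 𝓘(ℝ, E) x)]
  {ρ : ℝ → M → M} {Φ : ℝ → M → M}

/-- `∇ V` at a point, in the preferred chart -/
def NL (ρ : ℝ → M → M) (y : M) : E →L[ℝ] E :=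
  fderiv ℝ (vF ρ (chartAt E y)) (chartAt E y y) +
    chris (chartG (chartAt E y)) (chartAt E y y) (vF ρ (chartAt E y) (chartAt E y y))

/-- half the Lie derivative of the metric, at a point -/
def SM (ρ : ℝ → M → M) (y : M) (u : E) : ℝ :=
  Sfun (chartG (chartAt E y)) (vF ρ (chartAt E y)) (chartAt E y y) u

/-- its derivative along the flow, on a transported vector -/
def TM (ρ : ℝ → M → M) (y : M) (u : E) : ℝ :=
  2 * innerAt (E := E) y (NL ρ y u) (NL ρ y u) -
    2 * Rc (chartG (chartAt E y)) (chartAt E y y) (vF ρ (chartAt E y) (chartAt E y y)) u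

theorem chartG_chartAt (y : M) (u w : E) :
    chartG (chartAt E y) (chartAt E y y) u w = innerAt (E := E) y u w := by
  rw [chartG_eq_innerAt, Vale.Agent.P253.H595.dsymm_chartAt,
    (chartAt E y).left_inv (mem_chart_source E y)]
  rfl

theorem SM_chart (hρ : IsHolIsomFlow E ρ) {e : OpenPartialHomeomorph M E}
    (he : e ∈ maximalAtlas 𝓘(ℂ, E) 1 M) {z : E} (hz : z ∈ e.target) (a : E) :
    SM (E := E) ρ (e.symm z) (dsymm e z a) = Sfun (chartG e) (vF ρ e) z a := by
  have her := mem_maximalAtlas_real he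
  have h1 := (hasFDerivAt_dsymm her hz).fderiv
  have h2 := Sfun_chart hρ he (chart_mem_maximalAtlas (e.symm z)) (e.map_target hz)
    (mem_chart_source E (e.symm z)) a
  rw [e.right_inv hz, h1] at h2
  exact h2

/-- `∇ V` is the symmetric operator of half the Lie derivative -/
theorem innerAt_NL (hK : IsKahler E M) (hρ : IsHolIsomFlow E ρ) (y : M) (u w : E) :
    innerAt (E := E) y (NL ρ y u) w = innerAt (E := E) y (NL ρ y w) u := by
  have he : chartAt E y ∈ maximalAtlas 𝓘(ℂ, E) 1 M := chart_mem_maximalAtlas y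
  have hz : chartAt E y y ∈ (chartAt E y).target := mem_chart_target E y
  have h1 := Nop_symm (localKahler_chartG hK he) (differentiableOn_vF hρ he) (killing_vF hρ he)
    hz u w
  rw [chartG_chartAt, chartG_chartAt] at h1
  exact h1

theorem SM_eq (hK : IsKahler E M) (y : M) (u : E) :
    SM (E := E) ρ y u = innerAt (E := E) y (NL ρ y u) u := by
  have he : chartAt E y ∈ maximalAtlas 𝓘(ℂ, E) 1 M := chart_mem_maximalAtlas y
  have hz : chartAt E y y ∈ (chartAt E y).target := mem_chart_target E y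
  have h := localKahler_chartG hK he
  rw [← chartG_chartAt, SM, Sfun, h.fderiv_eq hz, NL, add_apply, map_add, add_apply,
    h.symm _ hz u]
  ring

/-- local form of the flow of `-JX` at a point -/
theorem local_flow (hρ : IsHolIsomFlow E ρ) (hΦ0 : ∀ x, Φ 0 x = x)
    (hΦ : ∀ x, IsMIntegralCurve (I := 𝓘(ℝ, E)) (fun t => Φ t x) (W ρ)) (x : M) :
    ∃ δ > 0, ∃ H : ℝ → E → E, H 0 (chartAt E x x) = chartAt E x x ∧
      (∀ a, fderiv ℝ (H 0) (chartAt E x x) a = a) ∧
      (∀ t ∈ Ioo (-δ) δ, H t (chartAt E x x) ∈ (chartAt E x).target ∧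
        HasDerivAt (fun s => H s (chartAt E x x)) (vF ρ (chartAt E x) (H t (chartAt E x x))) t) ∧
      (∀ a, ∀ t ∈ Ioo (-δ) δ, HasDerivAt (fun s => fderiv ℝ (H s) (chartAt E x x) a)
        (fderiv ℝ (vF ρ (chartAt E x)) (H t (chartAt E x x))
          (fderiv ℝ (H t) (chartAt E x x) a)) t) ∧
      (∀ t ∈ Ioo (-δ) δ, Φ t x = (chartAt E x).symm (H t (chartAt E x x))) ∧
      (∀ t ∈ Ioo (-δ) δ, ∀ w : E, dM (E := E) (Φ t) x w =
        dsymm (chartAt E x) (H t (chartAt E x x)) (fderiv ℝ (H t) (chartAt E x x) w)) := by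
  have he : chartAt E x ∈ maximalAtlas 𝓘(ℂ, E) 1 M := chart_mem_maximalAtlas x
  have hds := Vale.Agent.P253.H595.dsymm_chartAt (E := E) x
  set e := chartAt E x with hedef
  have her := mem_maximalAtlas_real he
  have hx : x ∈ e.source := mem_chart_source E x
  obtain ⟨δ, hδ, r, hr, hrU, H, hH, hHd, hvar⟩ := exists_flow_var e.open_target
    (differentiableOn_vF hρ he) (e.map_source hx)
  have hxr : e x ∈ ball (e x) r := mem_ball_self hr
  set V := e.source ∩ e ⁻¹' (ball (e x) r) with hV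
  have hVo : IsOpen V := e.continuousOn.isOpen_inter_preimage e.open_source isOpen_ball
  have hform : ∀ y ∈ V, ∀ t ∈ Ioo (-δ) δ, Φ t y = e.symm (H t (e y)) := by
    intro y hy t ht
    obtain ⟨h0, h1⟩ := hH (e y) hy.2
    have h2 : IsMIntegralCurveOn (I := 𝓘(ℝ, E)) (fun t => e.symm (H t (e y))) (W ρ)
        (Ioo (-δ) δ) := by
      intro t ht
      obtain ⟨h2, h3⟩ := h1 t ht
      exact (IntegralCurve.of_chart hρ he h3 h2).hasMFDerivWithinAt
    exact isMIntegralCurveOn_Ioo_eqOn_of_contMDiff_boundaryless (t₀ := 0)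
      ⟨by linarith only [hδ], by linarith only [hδ]⟩ (contMDiff_W hρ)
      ((hΦ y).isMIntegralCurveOn _) h2 (by simp only [hΦ0, h0, e.left_inv hy.1]) ht
  have h0' : (0:ℝ) ∈ Ioo (-δ) δ := ⟨by linarith only [hδ], hδ⟩
  obtain ⟨h0, h1⟩ := hH (e x) hxr
  refine ⟨δ, hδ, H, h0, fun a => ?_, h1, fun a t ht => hvar (e x) hxr a t ht,
    fun t ht => hform x ⟨hx, hxr⟩ t ht, fun t ht w => ?_⟩
  · have h2 : H 0 =ᶠ[𝓝 (e x)] id := by
      filter_upwards [isOpen_ball.mem_nhds hxr] with z hz using (hH z hz).1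
    rw [h2.fderiv_eq, fderiv_id]
    rfl
  · have htgt : H t (e x) ∈ e.target := (h1 t ht).1
    have hdc : dchart e x w = w := by
      have h2 : (dsymm e (e x)).comp (dchart e x) = ContinuousLinearMap.id ℝ E :=
        (mdifferentiable_chart her).symm_comp_deriv hx
      rw [hds] at h2
      exact congrArg (fun T : E →L[ℝ] E => T w) h2
    have hmd : HasMFDerivAt 𝓘(ℝ, E) 𝓘(ℝ, E) e x (dchart e x) :=
      (((contMDiffOn_of_mem_maximalAtlas her).contMDiffAt
        (e.open_source.mem_nhds hx)).mdifferentiableAt (by simp)).hasMFDerivAt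
    have hHf : HasFDerivAt (H t) (fderiv ℝ (H t) (e x)) (e x) := by
      have h2 : DifferentiableAt ℂ (H t) (e x) :=
        ((hHd t ht) (e x) hxr).differentiableAt (isOpen_ball.mem_nhds hxr)
      exact (h2.hasFDerivAt.restrictScalars ℝ).differentiableAt.hasFDerivAt
    have hms : HasMFDerivAt 𝓘(ℝ, E) 𝓘(ℝ, E) e.symm (H t (e x))
        (mfderiv 𝓘(ℝ, E) 𝓘(ℝ, E) e.symm (H t (e x))) :=
      (((contMDiffOn_symm_of_mem_maximalAtlas her).contMDiffAt
        (e.open_target.mem_nhds htgt)).mdifferentiableAt (by simp)).hasMFDerivAt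
    let L : E →L[ℝ] E := (dsymm e (H t (e x))).comp ((fderiv ℝ (H t) (e x)).comp (dchart e x))
    have hcomp1 := HasMFDerivAt.comp x (g := H t) (f := e) hHf.hasMFDerivAt hmd
    have hcomp : HasMFDerivAt 𝓘(ℝ, E) 𝓘(ℝ, E) (e.symm ∘ (H t ∘ e)) x L :=
      HasMFDerivAt.comp x (g := e.symm) (f := H t ∘ e) hms hcomp1
    have hev : Φ t =ᶠ[𝓝 x] (e.symm ∘ (H t ∘ e)) := by
      filter_upwards [hVo.mem_nhds ⟨hx, hxr⟩] with y hy
      exact hform y hy t ht
    have h2 := (hcomp.congr_of_eventuallyEq hev).mfderiv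
    have h3 : dM (E := E) (Φ t) x w = dsymm e (H t (e x)) (fderiv ℝ (H t) (e x) (dchart e x w)) :=
      congrArg (fun T : E →L[ℝ] E => T w) h2
    rw [h3, hdc]

/-- derivative of the pulled back metric at time zero -/
theorem hasDerivAt_G_zero (hK : IsKahler E M) (hρ : IsHolIsomFlow E ρ) (hΦ0 : ∀ x, Φ 0 x = x)
    (hΦ : ∀ x, IsMIntegralCurve (I := 𝓘(ℝ, E)) (fun t => Φ t x) (W ρ)) (x : M) (w : E) :
    HasDerivAt (fun t => innerAt (E := E) (Φ t x) (dM (Φ t) x w) (dM (Φ t) x w))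
      (2 * SM (E := E) ρ x w) 0 := by
  have he : chartAt E x ∈ maximalAtlas 𝓘(ℂ, E) 1 M := chart_mem_maximalAtlas x
  have hz : chartAt E x x ∈ (chartAt E x).target := mem_chart_target E x
  obtain ⟨δ, hδ, H, h0, hid, h1, hvar, hform, hdM⟩ := local_flow hρ hΦ0 hΦ x
  have h0' : (0:ℝ) ∈ Ioo (-δ) δ := ⟨by linarith only [hδ], hδ⟩
  have h := localKahler_chartG hK he
  have hy := (h1 0 h0').2
  have hα := hvar w 0 h0'
  rw [h0] at hy hα
  rw [hid] at hα
  have h2 := hasDerivAt_energy (G := chartG (chartAt E x)) (v := vF ρ (chartAt E x))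
    (z := chartAt E x x) (h.differentiableAt hz) (chartG_symm (chartAt E x) _) hy h0 hα (hid w)
  refine h2.congr_of_eventuallyEq ?_
  filter_upwards [Ioo_mem_nhds h0'.1 h0'.2] with t ht
  rw [hdM t ht, hform t ht, ← chartG_eq_innerAt]

/-- derivative of the pulled back Lie derivative at time zero -/
theorem hasDerivAt_S_zero (hK : IsKahler E M) (hρ : IsHolIsomFlow E ρ) (hΦ0 : ∀ x, Φ 0 x = x)
    (hΦ : ∀ x, IsMIntegralCurve (I := 𝓘(ℝ, E)) (fun t => Φ t x) (W ρ)) (x : M) (w : E) :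
    HasDerivAt (fun t => SM (E := E) ρ (Φ t x) (dM (Φ t) x w)) (TM (E := E) ρ x w) 0 := by
  have he : chartAt E x ∈ maximalAtlas 𝓘(ℂ, E) 1 M := chart_mem_maximalAtlas x
  have hz : chartAt E x x ∈ (chartAt E x).target := mem_chart_target E x
  obtain ⟨δ, hδ, H, h0, hid, h1, hvar, hform, hdM⟩ := local_flow hρ hΦ0 hΦ x
  have h0' : (0:ℝ) ∈ Ioo (-δ) δ := ⟨by linarith only [hδ], hδ⟩
  have h := localKahler_chartG hK he
  have hy := (h1 0 h0').2
  have hα := hvar w 0 h0'
  rw [h0] at hy hα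
  rw [hid] at hα
  have h2 := hasDerivAt_Sfun h (contDiffOn_vF hρ he) (killing_vF hρ he) hz hy h0 hα (hid w)
  have h3 : TM (E := E) ρ x w = 2 * chartG (chartAt E x) (chartAt E x x)
      (Nop (chartG (chartAt E x)) (vF ρ (chartAt E x)) (chartAt E x x) w)
      (Nop (chartG (chartAt E x)) (vF ρ (chartAt E x)) (chartAt E x x) w) -
      2 * Rc (chartG (chartAt E x)) (chartAt E x x) (vF ρ (chartAt E x) (chartAt E x x)) w := by
    rw [chartG_chartAt]
    rfl
  rw [h3]
  refine h2.congr_of_eventuallyEq ?_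
  filter_upwards [Ioo_mem_nhds h0'.1 h0'.2] with t ht
  rw [hdM t ht, hform t ht, SM_chart hρ he (h1 t ht).1]

end Vale.Agent.P253.H202
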