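import Vale.Agent.P253.H836.ZMin
import Vale.Agent.P253.R2.H618.Exh2
import Vale.Agent.P253.R2.H451.Bus1
import Vale.Agent.P253.R2.H451.GenDefs

/-!
P253, H202: the logarithm of the length of a holomorphic vector field plus a small multiple of a
concave function of the squared distance has no local minimum where the field does not vanish.
-/

open scoped Manifold ContDiff Topology Bundle
open Set Metric Complex Filter Bundle IsManifold Manifold Module Asymptotics MeasureTheory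
  Vale.Agent.P253.Mfd Vale.Agent.P253.Mfd.LocalKahler Vale.Agent.P253.H595 Vale.Agent.P253.H22
  Vale.Agent.P253.H89 Vale.Agent.P253.R2.H618 Vale.Agent.P253.R2.H451

set_option maxSynthPendingDepth 3
set_option linter.unusedSectionVars false

noncomputable section

namespace Vale.Agent.P253.H202

section loc

variable {E : Type*} [NormedAddCommGroup E] [NormedSpace ℂ E] [FiniteDimensional ℂ E]
  {G : E → E →L[ℝ] E →L[ℝ] ℝ} {U : Set E} {c : E → E} {z X : E}

/-- a direction in which the covariant derivative of the field is a real multiple of the field -/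
theorem exists_dir (G : E → E →L[ℝ] E →L[ℝ] ℝ) (hne : c z ≠ 0) :
    ∃ (X : E) (l : ℝ), X ≠ 0 ∧ fderiv ℝ c z X + chris G z X (c z) = l • c z := by
  have : FiniteDimensional ℝ E := FiniteDimensional.complexToReal E
  set T : E →L[ℝ] E := fderiv ℝ c z + (chris G z).flip (c z) with hT
  have hTa : ∀ X, T X = fderiv ℝ c z X + chris G z X (c z) := fun X => by simp [hT]
  by_cases hinj : Function.Injective (T : E →ₗ[ℝ] E)
  · obtain ⟨X, hX⟩ := LinearMap.injective_iff_surjective.1 hinj (c z)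
    refine ⟨X, 1, ?_, ?_⟩
    · rintro rfl
      exact hne (by simpa using hX.symm)
    · rw [one_smul, ← hTa]; exact hX
  · rw [injective_iff_map_eq_zero] at hinj
    push Not at hinj
    obtain ⟨X, hX, hX0⟩ := hinj
    exact ⟨X, 0, hX0, by rw [zero_smul, ← hTa]; exact hX⟩

/-- squared length -/
def sqN (G : E → E →L[ℝ] E →L[ℝ] ℝ) (c : E → E) (y : E) : ℝ := G y (c y) (c y)

theorem contDiffOn_sqN (h : LocalKahler G U) (hc : ContDiffOn ℂ ∞ c U) :
    ContDiffOn ℝ ∞ (sqN G c) U :=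
  (h.smooth.clm_apply (hc.restrict_scalars ℝ)).clm_apply (hc.restrict_scalars ℝ)

theorem line_deriv (z X : E) (t : ℝ) : HasDerivAt (fun s : ℝ => z + s • X) X t := by
  simpa using ((hasDerivAt_id t).smul_const X).const_add z

theorem fderiv_sqN (h : LocalKahler G U) (hc : ContDiffOn ℂ ∞ c U) {y : E} (hy : y ∈ U) (X : E) :
    fderiv ℝ (sqN G c) y X = fderiv ℝ G y X (c y) (c y) + 2 * G y (fderiv ℝ c y X) (c y) := by
  have h1 := H836.hasDerivAt_sq h hc (line_deriv y X 0) (by simpa using hy)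
  have hd : DifferentiableAt ℝ (sqN G c) (y + (0:ℝ) • X) := by
    rw [zero_smul, add_zero]
    exact ((contDiffOn_sqN h hc).contDiffAt (h.isOpen.mem_nhds hy)).differentiableAt (by simp)
  have h2 := hd.hasFDerivAt.comp_hasDerivAt (0:ℝ) (line_deriv y X 0)
  have h3 := h2.unique h1
  simpa using h3

theorem fderiv2_sqN (h : LocalKahler G U) (hc : ContDiffOn ℂ ∞ c U) (hz : z ∈ U) (X : E) :
    fderiv ℝ (fderiv ℝ (sqN G c)) z X X = fderiv ℝ (fderiv ℝ G) z X X (c z) (c z)
        + 4 * fderiv ℝ G z X (fderiv ℝ c z X) (c z)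
        + 2 * G z (fderiv ℝ (fderiv ℝ c) z X X) (c z)
        + 2 * G z (fderiv ℝ c z X) (fderiv ℝ c z X) := by
  have h1 := H836.hasDerivAt_sq2 h hc (line_deriv z X 0) (by simpa using hz)
  have hd : DifferentiableAt ℝ (fderiv ℝ (sqN G c)) (z + (0:ℝ) • X) := by
    rw [zero_smul, add_zero]
    exact (((contDiffOn_sqN h hc).fderiv_of_isOpen h.isOpen (m := ∞) (by simp)).contDiffAt
      (h.isOpen.mem_nhds hz)).differentiableAt (by simp)
  have h2 := hd.hasFDerivAt.comp_hasDerivAt (0:ℝ) (line_deriv z X 0)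
  have h3 := h2.clm_apply (hasDerivAt_const (0:ℝ) X)
  have hU : ∀ᶠ s in 𝓝 (0:ℝ), z + s • X ∈ U := by
    have h5 : Tendsto (fun s : ℝ => z + s • X) (𝓝 0) (𝓝 z) := by
      have := (line_deriv z X 0).continuousAt.tendsto
      simpa using this
    exact h5.eventually (h.isOpen.mem_nhds hz)
  have h4 : (fun s : ℝ => (fderiv ℝ (sqN G c) ∘ fun s : ℝ => z + s • X) s X) =ᶠ[𝓝 0]
      fun s : ℝ => fderiv ℝ G (z + s • X) X (c (z + s • X)) (c (z + s • X))
        + 2 * G (z + s • X) (fderiv ℝ c (z + s • X) X) (c (z + s • X)) := by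
    filter_upwards [hU] with s hs
    exact fderiv_sqN h hc hs X
  have h6 := (h3.congr_of_eventuallyEq h4.symm).unique h1
  simpa using h6

/-- the complex Hessian of the squared length -/
theorem levi_sqN (h : LocalKahler G U) (hc : ContDiffOn ℂ ∞ c U) (hz : z ∈ U) (X : E) :
    fderiv ℝ (fderiv ℝ (sqN G c)) z X X + fderiv ℝ (fderiv ℝ (sqN G c)) z (I • X) (I • X) =
      4 * G z (fderiv ℝ c z X + chris G z X (c z)) (fderiv ℝ c z X + chris G z X (c z))
        - 4 * Rc G z X (c z) := by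
  have hcd : DifferentiableOn ℂ c U := hc.differentiableOn (by simp)
  have hcr : ContDiffOn ℝ ∞ c U := hc.restrict_scalars ℝ
  have h3 := h.star hz X (c z) (fderiv ℝ c z X)
  have h4 : fderiv ℝ c z (I • X) = I • fderiv ℝ c z X :=
    fderiv_real_smul_I h.isOpen hcd hz X
  have h5 : fderiv ℝ (fderiv ℝ c) z (I • X) (I • X) = -fderiv ℝ (fderiv ℝ c) z X X := by
    have hs : IsSymmSndFDerivAt ℝ c z :=
      (hcr.contDiffAt (h.isOpen.mem_nhds hz)).isSymmSndFDerivAt
        (by simpa using! (WithTop.coe_le_coe.2 le_top :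
          ((2 : ℕ∞) : WithTop ℕ∞) ≤ ((⊤ : ℕ∞) : WithTop ℕ∞)))
    rw [fderiv2_real_smul_I h.isOpen hc hz, hs.eq, fderiv2_real_smul_I h.isOpen hc hz,
      smul_smul, I_mul_I, neg_one_smul]
  have h7 : ∀ w : E, G z (-w) (c z) = -(G z w (c z)) := by
    intro w
    rw [(G z).map_neg w]
    rfl
  rw [fderiv2_sqN h hc hz X, fderiv2_sqN h hc hz (I • X), h4, h5, h.herm z hz, h7, ← h3]
  ring

/-- second derivative of a logarithm in a direction -/
theorem fderiv2_log {N : E → ℝ} (hU : IsOpen U) (hN : ContDiffOn ℝ ∞ N U)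
    (hpos : ∀ y ∈ U, 0 < N y) (hz : z ∈ U) (Y : E) :
    fderiv ℝ (fderiv ℝ (fun y => Real.log (N y))) z Y Y =
      (N z)⁻¹ * fderiv ℝ (fderiv ℝ N) z Y Y - (N z)⁻¹ ^ 2 * (fderiv ℝ N z Y) ^ 2 := by
  have hF : ContDiffOn ℝ ∞ (fun y => Real.log (N y)) U := hN.log fun y hy => (hpos y hy).ne'
  have hUe : ∀ᶠ s in 𝓝 (0:ℝ), z + s • Y ∈ U := by
    have h5 : Tendsto (fun s : ℝ => z + s • Y) (𝓝 0) (𝓝 z) := by
      have := (line_deriv z Y 0).continuousAt.tendsto
      simpa using this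
    exact h5.eventually (hU.mem_nhds hz)
  have hz0 : z + (0:ℝ) • Y = z := by simp
  have hd1 : HasFDerivAt (fderiv ℝ (fun y => Real.log (N y)))
      (fderiv ℝ (fderiv ℝ (fun y => Real.log (N y))) z) (z + (0:ℝ) • Y) := by
    rw [hz0]
    exact (((hF.fderiv_of_isOpen hU (m := ∞) (by simp)).contDiffAt
      (hU.mem_nhds hz)).differentiableAt (by simp)).hasFDerivAt
  have hd2 : HasFDerivAt (fderiv ℝ N) (fderiv ℝ (fderiv ℝ N) z) (z + (0:ℝ) • Y) := by
    rw [hz0]
    exact (((hN.fderiv_of_isOpen hU (m := ∞) (by simp)).contDiffAt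
      (hU.mem_nhds hz)).differentiableAt (by simp)).hasFDerivAt
  have hd3 : HasFDerivAt N (fderiv ℝ N z) (z + (0:ℝ) • Y) := by
    rw [hz0]
    exact ((hN.contDiffAt (hU.mem_nhds hz)).differentiableAt (by simp)).hasFDerivAt
  have e1 : HasDerivAt (fun s : ℝ => fderiv ℝ (fun y => Real.log (N y)) (z + s • Y) Y)
      (fderiv ℝ (fderiv ℝ (fun y => Real.log (N y))) z Y Y) 0 := by
    have h8 := HasFDerivAt.comp_hasDerivAt (0:ℝ) hd1 (line_deriv z Y 0)
    have h9 := h8.clm_apply (hasDerivAt_const (0:ℝ) Y)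
    rw [map_zero, add_zero] at h9
    exact h9
  have e2 : HasDerivAt (fun s : ℝ => fderiv ℝ N (z + s • Y) Y)
      (fderiv ℝ (fderiv ℝ N) z Y Y) 0 := by
    have h8 := HasFDerivAt.comp_hasDerivAt (0:ℝ) hd2 (line_deriv z Y 0)
    have h9 := h8.clm_apply (hasDerivAt_const (0:ℝ) Y)
    rw [map_zero, add_zero] at h9
    exact h9
  have e3 : HasDerivAt (fun s : ℝ => N (z + s • Y)) (fderiv ℝ N z Y) 0 :=
    hd3.comp_hasDerivAt (0:ℝ) (line_deriv z Y 0)
  have hne : N (z + (0:ℝ) • Y) ≠ 0 := by rw [hz0]; exact (hpos z hz).ne'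
  have e4 : HasDerivAt (fun s : ℝ => (N (z + s • Y))⁻¹ * fderiv ℝ N (z + s • Y) Y)
      (-(fderiv ℝ N z Y) / (N (z + (0:ℝ) • Y)) ^ 2 * fderiv ℝ N (z + (0:ℝ) • Y) Y +
        (N (z + (0:ℝ) • Y))⁻¹ * fderiv ℝ (fderiv ℝ N) z Y Y) 0 :=
    (e3.fun_inv hne).fun_mul e2
  have h4 : (fun s : ℝ => fderiv ℝ (fun y => Real.log (N y)) (z + s • Y) Y) =ᶠ[𝓝 0]
      fun s : ℝ => (N (z + s • Y))⁻¹ * fderiv ℝ N (z + s • Y) Y := by
    filter_upwards [hUe] with s hs
    have h6 : DifferentiableAt ℝ N (z + s • Y) :=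
      (hN.contDiffAt (hU.mem_nhds hs)).differentiableAt (by simp)
    have h7 := (h6.hasFDerivAt.log (hpos _ hs).ne').fderiv
    rw [h7]
    rfl
  have e5 := (e1.congr_of_eventuallyEq h4.symm).unique e4
  rw [hz0] at e5
  rw [e5]
  have hp := hpos z hz
  field_simp
  ring

/-- the logarithm of the squared length in a direction in which the covariant derivative of the
field is a multiple of the field -/
theorem levi_log (h : LocalKahler G U) (hc : ContDiffOn ℂ ∞ c U) (hne : ∀ y ∈ U, c y ≠ 0)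
    (hz : z ∈ U) {l : ℝ} (hX : fderiv ℝ c z X + chris G z X (c z) = l • c z) :
    fderiv ℝ (fderiv ℝ (fun y => Real.log (sqN G c y))) z X X +
      fderiv ℝ (fderiv ℝ (fun y => Real.log (sqN G c y))) z (I • X) (I • X) =
      -(4 * Rc G z X (c z) / sqN G c z) := by
  have hNs := contDiffOn_sqN h hc
  have hN0 : ∀ y ∈ U, 0 < sqN G c y := fun y hy => h.pos y hy _ (hne y hy)
  have hcd : DifferentiableOn ℂ c U := hc.differentiableOn (by simp)
  have key := fun Y : E => fderiv2_log h.isOpen hNs hN0 hz Y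
  have hG1 : fderiv ℝ (sqN G c) z X = 2 * l * sqN G c z := by
    rw [fderiv_sqN h hc hz X, h.fderiv_eq hz, h.symm z hz (c z)]
    have e1 : G z (fderiv ℝ c z X + chris G z X (c z)) (c z) = l * G z (c z) (c z) := by
      rw [hX, map_smul, smul_apply, smul_eq_mul]
    rw [map_add, add_apply] at e1
    unfold sqN
    linarith only [e1]
  have hG2 : fderiv ℝ (sqN G c) z (I • X) = 0 := by
    rw [fderiv_sqN h hc hz, h.fderiv_eq hz, h.symm z hz (c z)]
    have h4 : fderiv ℝ c z (I • X) = I • fderiv ℝ c z X :=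
      fderiv_real_smul_I h.isOpen hcd hz X
    have e1 : G z (fderiv ℝ c z (I • X) + chris G z (I • X) (c z)) (c z) = 0 := by
      rw [h4, h.par_left hz, ← smul_add, hX, smul_comm, map_smul, smul_apply]
      have h1 := h.herm z hz (c z) (I • c z)
      have h2 := h.symm z hz (c z) (I • c z)
      rw [smul_smul, I_mul_I, neg_one_smul, map_neg] at h1
      have h3 : G z (I • c z) (c z) = 0 := by linarith only [h1, h2]
      rw [h3, smul_zero]
    rw [map_add, add_apply] at e1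
    linarith only [e1]
  have hL := levi_sqN h hc hz X
  rw [hX] at hL
  have hG3 : G z (l • c z) (l • c z) = l ^ 2 * sqN G c z := by
    rw [map_smul, map_smul, smul_apply, smul_eq_mul, smul_eq_mul]
    unfold sqN
    ring
  rw [hG3] at hL
  rw [key, key, hG1, hG2]
  have hN := hN0 z hz
  field_simp
  linear_combination (sqN G c z) * hL

end loc

variable {E : Type*} [NormedAddCommGroup E] [NormedSpace ℂ E] [FiniteDimensional ℂ E]
  {M : Type*} [MetricSpace M] [ChartedSpace E M]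
  [IsManifold 𝓘(ℂ, E) 1 M] [IsManifold 𝓘(ℝ, E) ∞ M]
  [RiemannianBundle (fun x : M => TangentSpace 𝓘(ℝ, E) x)]
  [IsContMDiffRiemannianBundle 𝓘(ℝ, E) ∞ E (fun x : M => TangentSpace 𝓘(ℝ, E) x)]
  [IsRiemannianManifold 𝓘(ℝ, E) M]
  {Z : (x : M) → TangentSpace 𝓘(ℂ, E) x}

/-- `log |Z|² + δ Ψ(r²)` has no local minimum off the zeros of `Z` -/
theorem no_local_min (hK : IsKahler E M) [ProperSpace M]
    (hnn : ∀ x : M, NonnegBisectionalAt E x) (hZ : IsHolField Z) (hne : ∀ x, fnorm E Z x ≠ 0)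
    {x : M} (o : M) {κ m δ : ℝ} (hκ : BisectionalGe E x κ) {Ψ : ℝ → ℝ}
    (hΨ : ∀ t, 0 ≤ t → Ψ t ≤ Ψ (dist x o ^ 2) + m * (t - dist x o ^ 2)) (hm : 0 ≤ m)
    (hδ : 0 ≤ δ) (hlt : δ * m < κ / 2)
    (hmin : IsLocalMin (fun y => Real.log (fnorm E Z y ^ 2) + δ * Ψ (dist y o ^ 2)) x) :
    False := by
  have he : chartAt E x ∈ maximalAtlas 𝓘(ℂ, E) 1 M := chart_mem_maximalAtlas x
  have hx : x ∈ (chartAt E x).source := mem_chart_source E x
  set e := chartAt E x with hedef
  have hz := e.map_source hx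
  set c : E → E := fun y => comps (E := E) Z e (e.symm y) with hc
  have hLK := localKahler_chartG hK he
  have hcc : ContDiffOn ℂ ∞ c e.target :=
    contDiffOn_of_differentiableOn_complex e.open_target (hZ e he)
  have hsq : ∀ y ∈ e.target, sqN (chartG e) c y = fnorm E Z (e.symm y) ^ 2 := by
    intro y hy
    rw [fnorm_sq_eq he (e.map_target hy), e.right_inv hy]
    rfl
  have hcne : ∀ y ∈ e.target, c y ≠ 0 := by
    intro y hy h0
    have h1 := hsq y hy
    unfold sqN at h1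
    rw [h0, map_zero] at h1
    exact hne _ (pow_eq_zero_iff two_ne_zero |>.1 h1.symm)
  obtain ⟨X, l, hX0, hX⟩ := exists_dir (chartG e) (hcne _ hz)
  have hL := levi_log hLK hcc hcne hz hX
  have hNpos : ∀ y ∈ e.target, 0 < sqN (chartG e) c y := fun y hy => hLK.pos y hy _ (hcne y hy)
  have hF : ContDiffOn ℝ ∞ (fun y => Real.log (sqN (chartG e) c y)) e.target :=
    (contDiffOn_sqN hLK hcc).log fun y hy => (hNpos y hy).ne'
  have hR := Rc_ge_chartG hK he hx hκ X (c (e x))
  set g := chartG e (e x) X X with hg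
  have hg0 : 0 < g := hLK.pos _ hz X hX0
  have hN := hNpos _ hz
  set S := fderiv ℝ (fderiv ℝ (fun y => Real.log (sqN (chartG e) c y))) (e x) X X +
      fderiv ℝ (fderiv ℝ (fun y => Real.log (sqN (chartG e) c y))) (e x) (I • X) (I • X) with hS
  have hS1 : S ≤ -(2 * κ * g) := by
    rw [hL]
    have h1 : κ / 2 * g * sqN (chartG e) c (e x) ≤ Rc (chartG e) (e x) X (c (e x)) := hR
    have h2 : 2 * κ * g ≤ 4 * Rc (chartG e) (e x) X (c (e x)) / sqN (chartG e) c (e x) := by
      rw [le_div_iff₀ hN]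
      linarith only [h1]
    linarith only [h2]
  -- the parameter of the error
  have h2δ : 0 < 2 * κ - 4 * (δ * m) := by linarith only [hlt]
  have hδm : 0 ≤ δ * m := mul_nonneg hδ hm
  set η : ℝ := (2 * κ - 4 * (δ * m)) * g / (2 * (1 + δ * m)) with hη
  have hη0 : 0 < η := by positivity
  have hη1 : η * (1 + δ * m) < (2 * κ - 4 * (δ * m)) * g := by
    rw [hη, div_mul_eq_mul_div, div_lt_iff₀ (by positivity)]
    have : 0 < (2 * κ - 4 * (δ * m)) * g * (1 + δ * m) := by positivity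
    linarith only [this]
  set a : ℝ → Fin 4 → M := fun r k => e.symm (e x + r • (I ^ (k:ℕ) • ((1:ℂ) • X))) with ha
  have hharm : HarmW e x X (fun _ => 1) a := exists_harmW hx X (w := fun _ => 1) (by simp)
  have h1 := (four_taylor e.open_target (hF.of_le (by simpa using!
    (WithTop.coe_le_coe.2 le_top : ((2 : ℕ∞) : WithTop ℕ∞) ≤ ((⊤ : ℕ∞) : WithTop ℕ∞))))
    hz X isSmall_zero).def hη0
  have h2 := leviSq_all hK hnn o x e he hx X (fun _ => 1) (by simp) a hharm η hη0
  have h3 : ∀ᶠ r in 𝓝[>] (0:ℝ), ∀ k : Fin 4, Real.log (fnorm E Z x ^ 2) + δ * Ψ (dist x o ^ 2) ≤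
      Real.log (fnorm E Z (a r k) ^ 2) + δ * Ψ (dist (a r k) o ^ 2) :=
    eventually_all.2 fun k => (hharm.tendsto (by simp) hx k).eventually hmin
  have h4 : ∀ᶠ r in 𝓝[>] (0:ℝ), ∀ k : Fin 4, e x + r • (I ^ (k:ℕ) • ((1:ℂ) • X)) ∈ e.target := by
    refine eventually_all.2 fun k => ?_
    have h5 : Continuous (fun r : ℝ => e x + r • (I ^ (k:ℕ) • ((1:ℂ) • X))) := by fun_prop
    have h6 : Tendsto (fun r : ℝ => e x + r • (I ^ (k:ℕ) • ((1:ℂ) • X))) (𝓝[>] (0:ℝ))
        (𝓝 (e x)) := by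
      have := (h5.tendsto 0).mono_left (nhdsWithin_le_nhds (s := Ioi (0:ℝ)))
      simpa using this
    exact h6.eventually (e.open_target.mem_nhds hz)
  obtain ⟨r, ⟨⟨⟨hr1, hr2⟩, hr3⟩, hr4⟩, hr0⟩ :=
    ((((h1.and h2).and h3).and h4).and self_mem_nhdsWithin).exists
  have hr : (0:ℝ) < r := hr0
  rw [Real.norm_of_nonneg (show 0 ≤ r ^ 2 by positivity)] at hr1
  have k1 := (abs_le.1 (by rwa [Real.norm_eq_abs] at hr1)).2
  have k2 : ∀ k : Fin 4, Real.log (sqN (chartG e) c (e x + (r • (I ^ (k:ℕ) • X) + 0))) =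
      Real.log (fnorm E Z (a r k) ^ 2) := by
    intro k
    have h7 := hr4 k
    rw [one_smul] at h7
    rw [add_zero, hsq _ h7, ha]
    simp only [one_smul]
  have k3 : Real.log (sqN (chartG e) c (e x)) = Real.log (fnorm E Z x ^ 2) := by
    rw [hsq _ hz, e.left_inv hx]
  simp only [k2, k3] at k1
  have k4 : ∑ k, Ψ (dist (a r k) o ^ 2) ≤ 4 * Ψ (dist x o ^ 2) +
      m * (r ^ 2 * (4 * g + η)) := by
    have h5 : ∑ k, Ψ (dist (a r k) o ^ 2) ≤
        ∑ k : Fin 4, (Ψ (dist x o ^ 2) + m * (dist (a r k) o ^ 2 - dist x o ^ 2)) :=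
      Finset.sum_le_sum fun k _ => hΨ _ (sq_nonneg _)
    rw [Finset.sum_add_distrib, ← Finset.mul_sum, Finset.sum_sub_distrib] at h5
    simp only [Finset.sum_const, Finset.card_univ, Fintype.card_fin, nsmul_eq_mul] at h5
    push_cast at h5
    have h6 : m * (∑ k, dist (a r k) o ^ 2 - 4 * dist x o ^ 2) ≤ m * (r ^ 2 * (4 * g + η)) :=
      mul_le_mul_of_nonneg_left (by linarith only [hr2]) hm
    linarith only [h5, h6]
  have k5 : 4 * (Real.log (fnorm E Z x ^ 2) + δ * Ψ (dist x o ^ 2)) ≤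
      ∑ k, Real.log (fnorm E Z (a r k) ^ 2) + δ * ∑ k, Ψ (dist (a r k) o ^ 2) := by
    have h5 : ∑ _k : Fin 4, (Real.log (fnorm E Z x ^ 2) + δ * Ψ (dist x o ^ 2)) ≤
        ∑ k, (Real.log (fnorm E Z (a r k) ^ 2) + δ * Ψ (dist (a r k) o ^ 2)) :=
      Finset.sum_le_sum fun k _ => hr3 k
    have h6 : ∑ k, (Real.log (fnorm E Z (a r k) ^ 2) + δ * Ψ (dist (a r k) o ^ 2)) =
        ∑ k, Real.log (fnorm E Z (a r k) ^ 2) + δ * ∑ k, Ψ (dist (a r k) o ^ 2) := by
      rw [Finset.sum_add_distrib, Finset.mul_sum]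
    rw [h6, Finset.sum_const, Finset.card_univ, Fintype.card_fin, nsmul_eq_mul] at h5
    push_cast at h5
    exact h5
  have k6 := mul_le_mul_of_nonneg_left k4 hδ
  have hr2' : 0 < r ^ 2 := by positivity
  have k7 : 0 ≤ r ^ 2 * (S + η + δ * m * (4 * g + η)) := by
    have e1 : r ^ 2 * (S + η + δ * m * (4 * g + η)) =
      r ^ 2 * S + η * r ^ 2 + δ * (m * (r ^ 2 * (4 * g + η))) := by ring
    rw [e1]
    linarith only [k1, k5, k6]
  have k8 : 0 ≤ S + η + δ * m * (4 * g + η) := nonneg_of_mul_nonneg_right k7 hr2'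
  have e2 : S + η + δ * m * (4 * g + η) = S + η * (1 + δ * m) + 4 * (δ * m) * g := by ring
  rw [e2] at k8
  have e3 : (2 * κ - 4 * (δ * m)) * g = 2 * κ * g - 4 * (δ * m) * g := by ring
  rw [e3] at hη1
  linarith only [k8, hη1, hS1]

/-- the weight is a concave function of the squared distance -/
theorem weight_supergrad {k : ℝ → ℝ} (hk : IsDecay k) {d t : ℝ} (hd : 0 ≤ d) (ht : 0 ≤ t) :
    2 * ∫ s in (0:ℝ)..√t, s * k s ≤ 2 * (∫ s in (0:ℝ)..√(d ^ 2), s * k s)
      + k d * (t - d ^ 2) := by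
  obtain ⟨hkc, hk0, hka⟩ := hk
  have hc : Continuous fun s : ℝ => s * k s := by fun_prop
  have hi : ∀ a b : ℝ, IntervalIntegrable (fun s : ℝ => s * k s) volume a b :=
    fun a b => hc.intervalIntegrable a b
  have hi' : ∀ a b : ℝ, IntervalIntegrable (fun s : ℝ => s * k d) volume a b :=
    fun a b => (by fun_prop : Continuous fun s : ℝ => s * k d).intervalIntegrable a b
  rw [Real.sqrt_sq hd]
  have hsplit := intervalIntegral.integral_interval_sub_left (hi 0 (√t)) (hi 0 d)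
  have hval : ∀ a b : ℝ, ∫ s in a..b, s * k d = (b ^ 2 - a ^ 2) / 2 * k d := by
    intro a b
    rw [intervalIntegral.integral_mul_const, integral_id]
  have hs0 : 0 ≤ √t := Real.sqrt_nonneg t
  rcases le_total d (√t) with h | h
  · have h1 : ∫ s in d..√t, s * k s ≤ ∫ s in d..√t, s * k d := by
      refine intervalIntegral.integral_mono_on h (hi _ _) (hi' _ _) fun s hs => ?_
      have hs1 : 0 ≤ s := hd.trans hs.1
      exact mul_le_mul_of_nonneg_left (hka hd hs1 hs.1) hs1
    rw [hval, Real.sq_sqrt ht] at h1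
    linarith only [h1, hsplit]
  · have h1 : ∫ s in √t..d, s * k d ≤ ∫ s in √t..d, s * k s := by
      refine intervalIntegral.integral_mono_on h (hi' _ _) (hi _ _) fun s hs => ?_
      have hs1 : 0 ≤ s := hs0.trans hs.1
      exact mul_le_mul_of_nonneg_left (hka hs1 hd hs.2) hs1
    rw [hval, Real.sq_sqrt ht, intervalIntegral.integral_symm] at h1
    linarith only [h1, hsplit]

theorem nonneg_of_ge {x : M} {κ : ℝ} (h : BisectionalGe E x κ) (hκ : 0 ≤ κ) :
    NonnegBisectionalAt E x := by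
  intro e he hx
  obtain ⟨Γ, hΓ, hb⟩ := h e he hx
  refine ⟨Γ, hΓ, fun u v => le_trans ?_ (hb u v)⟩
  have h1 : 0 ≤ chartMetric e (e x) u u := real_inner_self_nonneg
  have h2 : 0 ≤ chartMetric e (e x) v v := real_inner_self_nonneg
  positivity

/-- Bisectional curvature at least `k(r)`: a holomorphic vector field `Z` with
`|Z|(o) ≤ exp (δ ∫_0^r s k(s) ds) |Z|` off a compact set, `δ < 1/2`, has a zero. -/
theorem exists_zero_of_weight (hK : IsKahler E M) [CompleteSpace M] [ConnectedSpace M] {o : M}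
    {k : ℝ → ℝ} (hk : IsDecay k) (hcurv : ∀ x : M, BisectionalGe E x (k (dist o x)))
    (hZ : IsHolField Z) {δ : ℝ} (hδ0 : 0 ≤ δ) (hδ : δ < 1 / 2) {C : Set M} (hC : IsCompact C)
    (hout : ∀ x ∉ C, fnorm E Z o ≤
      Real.exp (δ * ∫ s in (0:ℝ)..dist o x, s * k s) * fnorm E Z x) :
    ∃ x, fnorm E Z x = 0 := by
  have hprop : ProperSpace M := properSpace_riemannian E M
  by_contra hcon
  push Not at hcon
  have hpos : ∀ x, 0 < fnorm E Z x := fun x => lt_of_le_of_ne (norm_nonneg _) (hcon x).symm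
  have hnn : ∀ x : M, NonnegBisectionalAt E x := fun x =>
    nonneg_of_ge (hcurv x) (hk.2.1 _ dist_nonneg).le
  have hc : Continuous fun s : ℝ => s * k s := continuous_id.mul hk.1
  have hΦ : Continuous fun r : ℝ => ∫ s in (0:ℝ)..r, s * k s :=
    intervalIntegral.continuous_primitive (fun a b => hc.intervalIntegrable a b) 0
  set w : M → ℝ := fun x => fnorm E Z x * Real.exp (δ * ∫ s in (0:ℝ)..dist o x, s * k s)
    with hw
  have hwc : Continuous w := by
    refine (continuous_fnorm hZ).mul (Real.continuous_exp.comp ?_)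
    exact continuous_const.mul (hΦ.comp (continuous_const.dist continuous_id))
  have hC' : IsCompact (insert o C) := hC.insert o
  obtain ⟨x, -, hxmin⟩ := hC'.exists_isMinOn (insert_nonempty o C) hwc.continuousOn
  have hwo : w o = fnorm E Z o := by simp [hw]
  have hglob : ∀ y, w x ≤ w y := by
    intro y
    by_cases hy : y ∈ insert o C
    · exact hxmin hy
    · have h1 : w x ≤ w o := hxmin (mem_insert o C)
      have h2 := hout y (fun h => hy (mem_insert_of_mem o h))
      rw [hwo] at h1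
      rw [mul_comm] at h2
      exact h1.trans h2
  have hlog : ∀ y, Real.log (fnorm E Z y ^ 2) +
      δ * (2 * ∫ s in (0:ℝ)..√(dist y o ^ 2), s * k s) = 2 * Real.log (w y) := by
    intro y
    rw [Real.sqrt_sq dist_nonneg, dist_comm y o, Real.log_pow, hw]
    simp only
    rw [Real.log_mul (hpos y).ne' (Real.exp_ne_zero _), Real.log_exp]
    push_cast
    ring
  have hmin : IsLocalMin (fun y => Real.log (fnorm E Z y ^ 2) +
      δ * (fun t : ℝ => 2 * ∫ s in (0:ℝ)..√t, s * k s) (dist y o ^ 2)) x := by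
    refine Filter.Eventually.of_forall fun y => ?_
    simp only
    rw [hlog, hlog]
    have h1 : 0 < w x := mul_pos (hpos x) (Real.exp_pos _)
    have h2 := Real.log_le_log h1 (hglob y)
    linarith only [h2]
  have hkx := hk.2.1 (dist o x) dist_nonneg
  refine no_local_min hK hnn hZ hcon o (hcurv x) (m := k (dist x o)) (δ := δ)
    (fun t ht => weight_supergrad hk dist_nonneg ht) ?_ hδ0 ?_ hmin
  · rw [dist_comm]; exact hkx.le
  · rw [dist_comm x o]
    nlinarith only [hkx, hδ]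

/-- Bisectional curvature at least `k(r)` with `∫ s k(s) ds = ∞`: a holomorphic vector field
whose length is at least `c exp (-δ ∫_0^r s k(s) ds)`, `δ < 1/2`, off a compact set, has a
zero. -/
theorem exists_zero_of_decay (hK : IsKahler E M) [CompleteSpace M] [ConnectedSpace M] {o : M}
    {k : ℝ → ℝ} (hk : IsDecay k) (hcurv : ∀ x : M, BisectionalGe E x (k (dist o x)))
    (hdiv : Tendsto (fun r : ℝ => ∫ s in (0:ℝ)..r, s * k s) atTop atTop)
    (hZ : IsHolField Z) {c δ : ℝ} (hc0 : 0 < c) (hδ0 : 0 ≤ δ) (hδ : δ < 1 / 2) {C : Set M}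
    (hC : IsCompact C)
    (hlow : ∀ x ∉ C, c ≤ Real.exp (δ * ∫ s in (0:ℝ)..dist o x, s * k s) * fnorm E Z x) :
    ∃ x, fnorm E Z x = 0 := by
  have hprop : ProperSpace M := properSpace_riemannian E M
  set δ' : ℝ := (δ + 1 / 2) / 2 with hδ'
  have h1 : 0 < δ' - δ := by rw [hδ']; linarith only [hδ]
  have h2 : Tendsto (fun r : ℝ => c * Real.exp ((δ' - δ) * ∫ s in (0:ℝ)..r, s * k s))
      atTop atTop :=
    (Real.tendsto_exp_atTop.comp (hdiv.const_mul_atTop h1)).const_mul_atTop hc0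
  obtain ⟨R, hR⟩ := (h2.eventually_ge_atTop (fnorm E Z o)).exists_forall_of_atTop
  refine exists_zero_of_weight hK hk hcurv hZ (δ := δ') (by rw [hδ']; linarith only [hδ0])
    (by rw [hδ']; linarith only [hδ]) (hC.union (isCompact_closedBall o R)) fun x hx => ?_
  rw [mem_union, not_or, mem_closedBall, not_le, dist_comm] at hx
  have h3 := hR _ hx.2.le
  have h4 := hlow x hx.1
  have h5 : Real.exp (δ' * ∫ s in (0:ℝ)..dist o x, s * k s) =
      Real.exp ((δ' - δ) * ∫ s in (0:ℝ)..dist o x, s * k s) *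
        Real.exp (δ * ∫ s in (0:ℝ)..dist o x, s * k s) := by
    rw [← Real.exp_add]
    congr 1
    ring
  rw [h5, mul_assoc]
  calc fnorm E Z o ≤ c * Real.exp ((δ' - δ) * ∫ s in (0:ℝ)..dist o x, s * k s) := h3
    _ = Real.exp ((δ' - δ) * ∫ s in (0:ℝ)..dist o x, s * k s) * c := mul_comm _ _
    _ ≤ _ := mul_le_mul_of_nonneg_left h4 (Real.exp_pos _).le

/-- Bisectional curvature at least `k(r)`, `k` nonincreasing, `∫ s k(s) ds = ∞`: a holomorphic
vector field whose length is bounded from below near infinity has a zero. -/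
theorem exists_zero_of_liminf (hK : IsKahler E M) [CompleteSpace M] [NoncompactSpace M]
    [ConnectedSpace M] (_hpos : ∀ x : M, PosBisectionalAt E x) (hZ : IsHolField Z) {o : M}
    {k : ℝ → ℝ} (hk : Continuous k) (hk0 : ∀ r, 0 ≤ r → 0 ≤ k r) (hanti : AntitoneOn k (Ici 0))
    (hB : ∀ x : M, BisectionalGe E x (k (dist o x)))
    (hint : Tendsto (fun r : ℝ => ∫ s in (0:ℝ)..r, s * k s) atTop atTop)
    (hlow : ∃ c > 0, ∃ R, ∀ x : M, R ≤ dist o x → c ≤ fnorm E Z x) : ∃ p, (Z p : E) = 0 := by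
  have hprop : ProperSpace M := properSpace_riemannian E M
  have hc : Continuous fun s : ℝ => s * k s := continuous_id.mul hk
  have hi : ∀ a b : ℝ, IntervalIntegrable (fun s : ℝ => s * k s) volume a b :=
    fun a b => hc.intervalIntegrable a b
  have hkpos : ∀ r, 0 ≤ r → 0 < k r := by
    intro r hr
    by_contra hcon
    have h0 : k r = 0 := le_antisymm (not_lt.1 hcon) (hk0 r hr)
    obtain ⟨R, hR1, hR2⟩ := ((hint.eventually_gt_atTop (∫ s in (0:ℝ)..r, s * k s)).and
      (eventually_ge_atTop r)).exists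
    have h1 : ∫ s in r..R, s * k s ≤ ∫ _s in r..R, (0:ℝ) := by
      refine intervalIntegral.integral_mono_on hR2 (hi _ _) (by simp) fun s hs => ?_
      have hs0 : 0 ≤ s := hr.trans hs.1
      have h2 : k s ≤ 0 := (hanti hr hs0 hs.1).trans h0.le
      have h3 : k s = 0 := le_antisymm h2 (hk0 s hs0)
      simp [h3]
    rw [intervalIntegral.integral_zero] at h1
    have h4 := intervalIntegral.integral_add_adjacent_intervals (hi 0 r) (hi r R)
    linarith only [h1, h4, hR1]
  obtain ⟨c, hc0, R, hR⟩ := hlow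
  obtain ⟨p, hp⟩ := exists_zero_of_decay hK ⟨hk, hkpos, hanti⟩ hB hint hZ hc0 le_rfl
    (by norm_num : (0:ℝ) < 1 / 2) (isCompact_closedBall o R) fun x hx => by
      rw [mem_closedBall, not_le, dist_comm] at hx
      rw [zero_mul, Real.exp_zero, one_mul]
      exact hR x hx.le
  exact ⟨p, norm_eq_zero.1 hp⟩

end Vale.Agent.P253.H202
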