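import Vale.Agent.P253.H202.Loc

/-!
P253: the metric pulled back by the flow of `-JX`, as a curve of bilinear forms.
-/

open scoped Manifold ContDiff Topology Bundle ENNReal
open Set Metric Complex Filter Bundle IsManifold Manifold Vale.Agent.P253.Mfd
  Vale.Agent.P253.H502

set_option maxSynthPendingDepth 3
set_option linter.unusedSectionVars false

noncomputable section

namespace Vale.Agent.P253.H202

variable {E : Type*} [NormedAddCommGroup E] [NormedSpace ℂ E] [FiniteDimensional ℂ E]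
  {M : Type*} [MetricSpace M] [ChartedSpace E M]
  [IsManifold 𝓘(ℂ, E) 1 M] [IsManifold 𝓘(ℝ, E) ∞ M]
  [RiemannianBundle (fun x : M => TangentSpace 𝓘(ℝ, E) x)]
  [IsContMDiffRiemannianBundle 𝓘(ℝ, E) ∞ E (fun x : M => TangentSpace 𝓘(ℝ, E) x)]
  {ρ : ℝ → M → M} {Φ : ℝ → M → M}

variable (E) in
/-- a global flow of `-JX` -/
structure IsFlow (ρ : ℝ → M → M) (Φ : ℝ → M → M) : Prop where
  zero : ∀ x, Φ 0 x = x
  add : ∀ s t x, Φ (s + t) x = Φ s (Φ t x)
  curve : ∀ x, IsMIntegralCurve (I := 𝓘(ℝ, E)) (fun t => Φ t x) (W (E := E) ρ)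

/-- the metric pulled back by the flow -/
def GB (Φ : ℝ → M → M) (x : M) (t : ℝ) : E →L[ℝ] E →L[ℝ] ℝ :=
  (chartG (chartAt E (Φ t x)) (chartAt E (Φ t x) (Φ t x))).bilinearComp (dM (Φ t) x)
    (dM (Φ t) x)

/-- half the Lie derivative of the metric, pulled back by the flow -/
def SB (ρ : ℝ → M → M) (Φ : ℝ → M → M) (x : M) (t : ℝ) : E →L[ℝ] E →L[ℝ] ℝ :=
  (chartG (chartAt E (Φ t x)) (chartAt E (Φ t x) (Φ t x))).bilinearComp
    ((NL ρ (Φ t x)).comp (dM (Φ t) x)) (dM (Φ t) x)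

theorem GB_apply (x : M) (t : ℝ) (a b : E) :
    GB Φ x t a b = innerAt (E := E) (Φ t x) (dM (Φ t) x a) (dM (Φ t) x b) := by
  rw [GB, ContinuousLinearMap.bilinearComp_apply, chartG_chartAt]

theorem SB_apply (x : M) (t : ℝ) (a b : E) :
    SB ρ Φ x t a b = innerAt (E := E) (Φ t x) (NL ρ (Φ t x) (dM (Φ t) x a)) (dM (Φ t) x b) := by
  rw [SB, ContinuousLinearMap.bilinearComp_apply, ContinuousLinearMap.comp_apply, chartG_chartAt]

theorem innerAt_comm (y : M) (u w : E) : innerAt (E := E) y u w = innerAt (E := E) y w u :=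
  real_inner_comm (show TangentSpace 𝓘(ℝ, E) y from w) (show TangentSpace 𝓘(ℝ, E) y from u)

theorem innerAt_pos (y : M) {u : E} (hu : u ≠ 0) : 0 < innerAt (E := E) y u u := by
  rw [← chartG_chartAt]
  exact chartG_pos (mem_maximalAtlas_real (chart_mem_maximalAtlas y)) (mem_chart_target E y) u hu

theorem innerAt_sub_left (y : M) (a b c : E) :
    innerAt (E := E) y (a - b) c = innerAt (E := E) y a c - innerAt (E := E) y b c := by
  rw [← chartG_chartAt, ← chartG_chartAt, ← chartG_chartAt, map_sub, sub_apply]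

namespace IsFlow

variable [IsRiemannianManifold 𝓘(ℝ, E) M] (hF : IsFlow E ρ Φ)
include hF

theorem smooth (hρ : IsHolIsomFlow E ρ) (t : ℝ) : ContMDiff 𝓘(ℝ, E) 𝓘(ℝ, E) ∞ (Φ t) :=
  contMDiff_real (flow_holo hρ hF.zero hF.add hF.curve t)

theorem comp_eq (s t : ℝ) : Φ (s + t) = Φ s ∘ Φ t := funext fun x => hF.add s t x

theorem dM_add (hρ : IsHolIsomFlow E ρ) (s t : ℝ) (x : M) (w : E) :
    dM (E := E) (Φ (s + t)) x w = dM (Φ s) (Φ t x) (dM (Φ t) x w) := by
  rw [hF.comp_eq]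
  exact dM_comp (hF.smooth hρ t) (hF.smooth hρ s) x w

theorem dM_zero (x : M) (w : E) : dM (E := E) (Φ 0) x w = w := by
  have h1 : Φ 0 = id := funext hF.zero
  rw [h1]
  exact dM_id x w

theorem dM_left_inv (hρ : IsHolIsomFlow E ρ) (t : ℝ) (x : M) (w : E) :
    dM (E := E) (Φ (-t)) (Φ t x) (dM (Φ t) x w) = w := by
  rw [← hF.dM_add hρ, neg_add_cancel, hF.dM_zero]

theorem dM_surj (hρ : IsHolIsomFlow E ρ) (t : ℝ) (x : M) (u : E) :
    ∃ w, dM (E := E) (Φ t) x w = u := by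
  refine ⟨dM (E := E) (Φ (-t)) (Φ t x) u, ?_⟩
  have h1 := hF.dM_left_inv hρ (-t) (Φ t x) u
  rw [neg_neg, ← hF.add, neg_add_cancel, hF.zero] at h1
  exact h1

theorem hasDerivAt_G (hK : IsKahler E M) (hρ : IsHolIsomFlow E ρ) (x : M) (w : E) (t : ℝ) :
    HasDerivAt (fun t => innerAt (E := E) (Φ t x) (dM (Φ t) x w) (dM (Φ t) x w))
      (2 * SM (E := E) ρ (Φ t x) (dM (Φ t) x w)) t := by
  have h1 := hasDerivAt_G_zero hK hρ hF.zero hF.curve (Φ t x) (dM (E := E) (Φ t) x w)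
  have h1' : HasDerivAt (fun s => innerAt (E := E) (Φ s (Φ t x))
      (dM (Φ s) (Φ t x) (dM (E := E) (Φ t) x w)) (dM (Φ s) (Φ t x) (dM (E := E) (Φ t) x w)))
      (2 * SM (E := E) ρ (Φ t x) (dM (Φ t) x w)) (t - t) := by rwa [sub_self]
  have h2 : HasDerivAt (fun s : ℝ => s - t) 1 t := (hasDerivAt_id t).sub_const t
  have h3 := HasDerivAt.scomp (h := fun s : ℝ => s - t) t h1' h2
  rw [one_smul] at h3
  refine h3.congr_of_eventuallyEq (Eventually.of_forall fun s => ?_)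
  simp only [Function.comp_apply]
  rw [← hF.dM_add hρ, ← hF.add, sub_add_cancel]

theorem hasDerivAt_S (hK : IsKahler E M) (hρ : IsHolIsomFlow E ρ) (x : M) (w : E) (t : ℝ) :
    HasDerivAt (fun t => SM (E := E) ρ (Φ t x) (dM (Φ t) x w))
      (TM (E := E) ρ (Φ t x) (dM (Φ t) x w)) t := by
  have h1 := hasDerivAt_S_zero hK hρ hF.zero hF.curve (Φ t x) (dM (E := E) (Φ t) x w)
  have h1' : HasDerivAt (fun s => SM (E := E) ρ (Φ s (Φ t x))
      (dM (Φ s) (Φ t x) (dM (E := E) (Φ t) x w)))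
      (TM (E := E) ρ (Φ t x) (dM (Φ t) x w)) (t - t) := by rwa [sub_self]
  have h2 : HasDerivAt (fun s : ℝ => s - t) 1 t := (hasDerivAt_id t).sub_const t
  have h3 := HasDerivAt.scomp (h := fun s : ℝ => s - t) t h1' h2
  rw [one_smul] at h3
  refine h3.congr_of_eventuallyEq (Eventually.of_forall fun s => ?_)
  simp only [Function.comp_apply]
  rw [← hF.dM_add hρ, ← hF.add, sub_add_cancel]

theorem GB_symm (x : M) (t : ℝ) (a b : E) : GB Φ x t a b = GB Φ x t b a := by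
  rw [GB_apply, GB_apply, innerAt_comm]

theorem SB_symm (hK : IsKahler E M) (hρ : IsHolIsomFlow E ρ) (x : M) (t : ℝ) (a b : E) :
    SB ρ Φ x t a b = SB ρ Φ x t b a := by
  rw [SB_apply, SB_apply, innerAt_NL hK hρ]

theorem SB_diag (hK : IsKahler E M) (x : M) (t : ℝ) (a : E) :
    SB ρ Φ x t a a = SM (E := E) ρ (Φ t x) (dM (Φ t) x a) := by
  rw [SB_apply, SM_eq hK]

theorem GB_pos (hρ : IsHolIsomFlow E ρ) (x : M) (t : ℝ) {a : E} (ha : a ≠ 0) :
    0 < GB Φ x t a a := by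
  rw [GB_apply]
  refine innerAt_pos _ fun h0 => ha ?_
  rw [← hF.dM_left_inv hρ t x a, h0, map_zero]

theorem hasDerivAt_GB (hK : IsKahler E M) (hρ : IsHolIsomFlow E ρ) (x : M) (t : ℝ) :
    HasDerivAt (GB (E := E) Φ x) ((2:ℝ) • SB ρ Φ x t) t := by
  have hfd : FiniteDimensional ℝ E := FiniteDimensional.complexToReal E
  refine hasDerivAt_bilin (fun t a b => hF.GB_symm x t a b) (fun a b => ?_) fun a => ?_
  · simp only [smul_apply]
    rw [hF.SB_symm hK hρ]
  · simp only [GB_apply, smul_apply, smul_eq_mul, hF.SB_diag hK]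
    exact hF.hasDerivAt_G hK hρ x a t

theorem exists_deriv_SB (hK : IsKahler E M) (hρ : IsHolIsomFlow E ρ) (x : M) (t : ℝ) :
    ∃ T : E →L[ℝ] E →L[ℝ] ℝ, HasDerivAt (SB (E := E) ρ Φ x) T t ∧
      ∀ a, T a a = TM (E := E) ρ (Φ t x) (dM (Φ t) x a) := by
  have hfd : FiniteDimensional ℝ E := FiniteDimensional.complexToReal E
  have h0 : DifferentiableAt ℝ (SB (E := E) ρ Φ x) t := by
    refine differentiableAt_bilin (fun t a b => hF.SB_symm hK hρ x t a b) fun a => ?_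
    simp only [hF.SB_diag hK]
    exact (hF.hasDerivAt_S hK hρ x a t).differentiableAt
  obtain ⟨D, hD⟩ := h0
  refine ⟨D 1, hD.hasDerivAt, fun a => ?_⟩
  have h1 := (hD.hasDerivAt.clm_apply (hasDerivAt_const t a)).clm_apply (hasDerivAt_const t a)
  have h2 := hF.hasDerivAt_S hK hρ x a t
  simp only [← hF.SB_diag hK] at h2
  have h3 := h1.unique h2
  simp only [map_zero, add_zero] at h3
  exact h3

end IsFlow

end Vale.Agent.P253.H202
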