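import Mathlib.Analysis.InnerProductSpace.PiL2
import Mathlib.Analysis.Calculus.FDeriv.Analytic
import Mathlib.Analysis.Calculus.Deriv.MeanValue
import Mathlib.Analysis.InnerProductSpace.Calculus
import Mathlib.Analysis.SpecialFunctions.ExpDeriv
import Mathlib.Analysis.SpecialFunctions.Log.Deriv
import Mathlib.Tactic

/-!
P253: positive semidefinite operators on a finite dimensional real inner product space.
-/

open Filter Set
open scoped Topology

noncomputable section

namespace Vale.Agent.P253.H202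

variable {H : Type*} [NormedAddCommGroup H] [InnerProductSpace ℝ H]

/-- symmetric operator -/
def Sym (A : H →L[ℝ] H) : Prop := ∀ a b : H, inner ℝ (A a) b = inner ℝ a (A b)

/-- nonnegative operator -/
def Nng (A : H →L[ℝ] H) : Prop := ∀ a : H, 0 ≤ inner ℝ (A a) a

theorem cs_psd {A : H →L[ℝ] H} (hs : Sym A) (hp : Nng A) (a b : H) :
    (inner ℝ (A a) b) ^ 2 ≤ inner ℝ (A a) a * inner ℝ (A b) b := by
  have h : ∀ s : ℝ, 0 ≤ inner ℝ (A b) b * (s * s) + (2 * inner ℝ (A a) b) * s
      + inner ℝ (A a) a := by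
    intro s
    have h1 := hp (a + s • b)
    have e : inner ℝ (A b) a = inner ℝ (A a) b := by rw [hs b a, real_inner_comm]
    rw [map_add, map_smul] at h1
    simp only [inner_add_left, inner_add_right, real_inner_smul_left, real_inner_smul_right,
      e] at h1
    linarith
  have h2 := discrim_le_zero h
  unfold discrim at h2
  nlinarith

variable [FiniteDimensional ℝ H]

/-- the trace, by means of a fixed orthonormal basis -/
def tra (A : H →L[ℝ] H) : ℝ := ∑ i, inner ℝ (A (stdOrthonormalBasis ℝ H i)) (stdOrthonormalBasis ℝ H i)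

theorem tra_nonneg {A : H →L[ℝ] H} (hp : Nng A) : 0 ≤ tra A :=
  Finset.sum_nonneg fun _ _ => hp _

/-- a nonnegative symmetric operator is bounded by its trace -/
theorem psd_le_tra {A : H →L[ℝ] H} (hs : Sym A) (hp : Nng A) (a : H) :
    inner ℝ (A a) a ≤ tra A * inner ℝ a a := by
  set q := inner ℝ (A a) a with hq
  have hq0 : 0 ≤ q := hp a
  have h1 : inner ℝ (A a) (A a) ≤ q * tra A := by
    have h2 : inner ℝ (A a) (A a) = ∑ i, (inner ℝ (A a) (stdOrthonormalBasis ℝ H i)) ^ 2 := by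
      rw [← (stdOrthonormalBasis ℝ H).sum_inner_mul_inner (A a) (A a)]
      refine Finset.sum_congr rfl fun i _ => ?_
      rw [real_inner_comm (A a) (stdOrthonormalBasis ℝ H i), sq]
    rw [h2, tra, Finset.mul_sum]
    exact Finset.sum_le_sum fun i _ => cs_psd hs hp a _
  have h3 : q ^ 2 ≤ inner ℝ (A a) (A a) * inner ℝ a a := by
    have := real_inner_mul_inner_self_le (A a) a
    rw [sq]
    exact this
  have h4 : 0 ≤ inner ℝ a a := real_inner_self_nonneg
  have ht : 0 ≤ tra A := tra_nonneg hp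
  rcases hq0.eq_or_lt with h0 | h0
  · rw [← h0]; positivity
  · have h5 : q * q ≤ q * (tra A * inner ℝ a a) := by
      calc q * q = q ^ 2 := (sq q).symm
        _ ≤ inner ℝ (A a) (A a) * inner ℝ a a := h3
        _ ≤ q * tra A * inner ℝ a a := by gcongr
        _ = q * (tra A * inner ℝ a a) := by ring
    exact le_of_mul_le_mul_left h5 h0

/-- spectral gap at zero -/
theorem exists_gap {X : H →L[ℝ] H} (hs : Sym X) :
    ∃ k > 0, ∀ u : H, k * inner ℝ (X u) u ≤ inner ℝ (X u) (X u) := by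
  set W : Submodule ℝ H := LinearMap.ker (X : H →ₗ[ℝ] H) with hW
  -- restriction to the orthogonal complement of the kernel
  set L : Wᗮ →ₗ[ℝ] H := (X : H →ₗ[ℝ] H).comp Wᗮ.subtype with hL
  have hLker : LinearMap.ker L = ⊥ := by
    rw [LinearMap.ker_eq_bot']
    rintro ⟨y, hy⟩ h1
    have h2 : y ∈ W := by
      rw [hW, LinearMap.mem_ker]
      exact h1
    have h3 : y ∈ W ⊓ Wᗮ := ⟨h2, hy⟩
    rw [Submodule.inf_orthogonal_eq_bot] at h3
    exact Subtype.ext ((Submodule.mem_bot ℝ).1 h3)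
  obtain ⟨K, hK0, hK⟩ := L.exists_antilipschitzWith hLker
  have hK1 : (0:ℝ) < K := by exact_mod_cast hK0
  refine ⟨(K:ℝ)⁻¹, by positivity, fun u => ?_⟩
  obtain ⟨p, hp⟩ : ∃ p : Wᗮ, (p : H) = Wᗮ.starProjection u :=
    ⟨⟨Wᗮ.starProjection u, Wᗮ.starProjection_apply_mem u⟩, rfl⟩
  have hXu : X u = X (p : H) := by
    have h1 : u - (p : H) ∈ (Wᗮ)ᗮ := by
      rw [hp]; exact Submodule.sub_starProjection_mem_orthogonal u
    rw [Submodule.orthogonal_orthogonal] at h1
    have h2 : X (u - (p : H)) = 0 := h1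
    rw [map_sub, sub_eq_zero] at h2
    exact h2
  have h1 : inner ℝ (X u) u = inner ℝ (X (p:H)) (p : H) := by
    rw [hXu, hs (p:H) u, hXu, hs (p:H) (p:H)]
  have h2 : ‖(p : H)‖ ≤ K * ‖X (p : H)‖ := by
    have h3 := hK.le_mul_dist p 0
    rw [dist_zero_right, map_zero, dist_zero_right] at h3
    exact h3
  rw [h1, hXu, real_inner_self_eq_norm_sq]
  have h4 : inner ℝ (X (p:H)) (p : H) ≤ ‖X (p:H)‖ * ‖(p:H)‖ := real_inner_le_norm _ _
  calc (K:ℝ)⁻¹ * inner ℝ (X (p:H)) (p : H) ≤ (K:ℝ)⁻¹ * (‖X (p:H)‖ * (K * ‖X (p:H)‖)) := by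
        gcongr
        exact h4.trans (by gcongr)
    _ = ‖X (p:H)‖ ^ 2 := by field_simp

end Vale.Agent.P253.H202
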